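import Vale.Agent.P065.H240.One

/-!
# P065, upper bound, ONE RESOLUTION (helper240), part G: output in the form of `Pre` (helper537)
-/

set_option autoImplicit false

namespace Vale.Agent.P065.H240

open Finset

open Classical in
/-- points in `N` intervals of half-length at most `δ` meet at most `3 N` cells of length `δ` -/
theorem cov_of_width {γ ι : Type} (G : Finset γ) (X : γ → ℝ) (I : Finset ι) (p u : ι → ℝ)
    (i : γ → ι) {δ : ℝ} (hδ : 0 < δ) (hI : ∀ B ∈ G, i B ∈ I)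
    (hX : ∀ B ∈ G, |X B - p (i B)| ≤ u (i B)) (hu : ∀ B ∈ G, u (i B) ≤ δ) :
    (#(G.image fun B => ⌊X B / δ⌋) : ℝ) ≤ 3 * #I := by
  have hsub : G.image (fun B => ⌊X B / δ⌋) ⊆
      I.biUnion (fun a => ({-1, 0, 1} : Finset ℤ).image (fun e => ⌊p a / δ⌋ + e)) := by
    intro c hc
    obtain ⟨B, hB, rfl⟩ := mem_image.1 hc
    refine mem_biUnion.2 ⟨i B, hI B hB, mem_image.2 ⟨⌊X B / δ⌋ - ⌊p (i B) / δ⌋, ?_, by ring⟩⟩
    have h1 := abs_le.1 ((hX B hB).trans (hu B hB))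
    have h2 : |X B / δ - p (i B) / δ| ≤ 1 := by
      rw [← sub_div, abs_div, abs_of_pos hδ, div_le_one hδ, abs_le]
      exact h1
    have h3 := abs_le.1 h2
    have g1 := Int.floor_le (X B / δ)
    have g2 := Int.lt_floor_add_one (X B / δ)
    have g3 := Int.floor_le (p (i B) / δ)
    have g4 := Int.lt_floor_add_one (p (i B) / δ)
    have g5 : (⌊X B / δ⌋ : ℝ) < ⌊p (i B) / δ⌋ + 2 := by linarith
    have g6 : (⌊p (i B) / δ⌋ : ℝ) < ⌊X B / δ⌋ + 2 := by linarith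
    have g5' : ⌊X B / δ⌋ < ⌊p (i B) / δ⌋ + 2 := by exact_mod_cast g5
    have g6' : ⌊p (i B) / δ⌋ < ⌊X B / δ⌋ + 2 := by exact_mod_cast g6
    simp only [mem_insert, mem_singleton]
    omega
  have h1 : #(G.image fun B => ⌊X B / δ⌋) ≤ #I * 3 := by
    refine (card_le_card hsub).trans (card_biUnion_le_card_mul _ _ _ fun a _ => ?_)
    refine card_image_le.trans ?_
    decide
  have h2 : (#(G.image fun B => ⌊X B / δ⌋) : ℝ) ≤ #I * 3 := by exact_mod_cast h1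
  linarith

variable {α γ ι κ β : Type} {K L μ : ℝ} {A : Finset α} {C : Finset γ} {Ca : α → Finset γ}
    {X Y : γ → ℝ} {Z : α → γ → ℝ} {I : Finset ι} {p u : ι → ℝ} {i : γ → ι}
    {J : Finset κ} {q v : κ → ℝ} {j : γ → κ} {KK : α → Finset β} {r w : α → β → ℝ}
    {k : α → γ → β}

open Classical in
/-- **ONE RESOLUTION**, output as a set `E` of pairs (class, point) -/
theorem oneres_pairs (h : Sys K L μ A C Ca X Y Z I p u i J q v j KK r w k)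
    (hLK : 12 * 10 ^ 7 * K ^ 20 ≤ L) :
    ∃ δ : ℝ, 0 < δ ∧ ∃ (H : Finset γ) (E : Finset (α × γ)), H ⊆ C ∧
      (∀ e ∈ E, e.1 ∈ A ∧ e.2 ∈ H ∧ e.2 ∈ Ca e.1 ∧ u (i e.2) ≤ δ ∧ v (j e.2) ≤ δ ∧
        w e.1 (k e.1 e.2) ≤ δ) ∧
      L ^ 2 * μ * #A ≤ 15360 ^ 2 * K ^ 21 * #E ∧
      (∀ δ' x0 y0 : ℝ, δ' ≤ δ → (#{B ∈ H | |X B - x0| ≤ δ' ∧ |Y B - y0| ≤ δ'} : ℝ)
        ≤ 16 * 10 ^ 21 * K ^ 50 * μ) ∧
      (∀ δ' : ℝ, 0 < δ' → ∀ G : Finset γ, (∀ B ∈ G, u (i B) ≤ δ' ∧ ∃ a ∈ A, B ∈ Ca a) →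
        (#(G.image fun B => ⌊X B / δ'⌋) : ℝ) ≤ 3 * K * L) ∧
      (∀ δ' : ℝ, 0 < δ' → ∀ G : Finset γ, (∀ B ∈ G, v (j B) ≤ δ' ∧ ∃ a ∈ A, B ∈ Ca a) →
        (#(G.image fun B => ⌊Y B / δ'⌋) : ℝ) ≤ 3 * K * L) := by
  obtain ⟨δ, hδ, H, hHC, hHm, A', hA', hA'c, G, hG⟩ := oneres h hLK
  obtain ⟨a₀, ha₀⟩ := h.ne
  have hT := h.tri a₀ ha₀
  have hK1 := hT.oneK
  have hK : 0 < K := lt_of_lt_of_le one_pos hK1
  have hL := hT.posL
  have hμ := hT.posM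
  set E : Finset (α × γ) := A'.biUnion fun a => (G a).image fun B => (a, B) with hE
  have hmem : ∀ e ∈ E, e.1 ∈ A' ∧ e.2 ∈ G e.1 := by
    intro e he
    obtain ⟨a, ha, he⟩ := mem_biUnion.1 he
    obtain ⟨B, hB, rfl⟩ := mem_image.1 he
    exact ⟨ha, hB⟩
  have hEc : #E = ∑ a ∈ A', #(G a) := by
    rw [hE, card_biUnion]
    · refine sum_congr rfl fun a _ => ?_
      exact card_image_of_injective _ fun x y hxy => (Prod.ext_iff.1 hxy).2
    · intro a _ b _ hab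
      rw [Function.onFun, disjoint_left]
      intro e h1 h2
      obtain ⟨B, -, rfl⟩ := mem_image.1 h1
      obtain ⟨B', -, h3⟩ := mem_image.1 h2
      exact hab (Prod.ext_iff.1 h3).1.symm
  refine ⟨δ, hδ, H, E, hHC, ?_, ?_, ?_, ?_, ?_⟩
  · intro e he
    obtain ⟨h1, h2⟩ := hmem e he
    obtain ⟨g1, g2, -, g4⟩ := hG e.1 h1
    obtain ⟨g5, g6, g7⟩ := g4 e.2 h2
    exact ⟨hA' h1, g1 h2, g2 h2, g5, g6, g7⟩
  · have e1 : (#A' : ℝ) * (L ^ 2 * μ) ≤ 15360 * K ^ 9 * #E := by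
      rw [hEc]
      push_cast
      rw [mul_sum]
      calc (#A' : ℝ) * (L ^ 2 * μ) = ∑ _a ∈ A', L ^ 2 * μ := by rw [sum_const, nsmul_eq_mul]
        _ ≤ _ := sum_le_sum fun a ha => (hG a ha).2.2.1
    calc L ^ 2 * μ * #A ≤ L ^ 2 * μ * (15360 * K ^ 12 * #A') :=
          mul_le_mul_of_nonneg_left hA'c (by positivity)
      _ = 15360 * K ^ 12 * (#A' * (L ^ 2 * μ)) := by ring
      _ ≤ 15360 * K ^ 12 * (15360 * K ^ 9 * #E) := mul_le_mul_of_nonneg_left e1 (by positivity)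
      _ = 15360 ^ 2 * K ^ 21 * #E := by ring
  · intro δ' x0 y0 hδ'
    refine le_trans ?_ (hHm x0 y0)
    have : ({B ∈ H | |X B - x0| ≤ δ' ∧ |Y B - y0| ≤ δ'} : Finset γ)
        ⊆ {B ∈ H | |X B - x0| ≤ δ ∧ |Y B - y0| ≤ δ} := by
      intro B hB
      rw [mem_filter] at hB ⊢
      exact ⟨hB.1, hB.2.1.trans hδ', hB.2.2.trans hδ'⟩
    exact_mod_cast card_le_card this
  · intro δ' hδ' G' hG'
    have h1 := cov_of_width G' X I p u i hδ'
      (fun B hB => by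
        obtain ⟨-, a, ha, hBa⟩ := hG' B hB
        exact (h.tri a ha).memI B hBa)
      (fun B hB => by
        obtain ⟨-, a, ha, hBa⟩ := hG' B hB
        exact (h.tri a ha).nx B hBa)
      (fun B hB => (hG' B hB).1)
    calc (#(G'.image fun B => ⌊X B / δ'⌋) : ℝ) ≤ 3 * #I := h1
      _ ≤ 3 * (K * L) := mul_le_mul_of_nonneg_left hT.cI (by norm_num)
      _ = 3 * K * L := by ring
  · intro δ' hδ' G' hG'
    have h1 := cov_of_width G' Y J q v j hδ'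
      (fun B hB => by
        obtain ⟨-, a, ha, hBa⟩ := hG' B hB
        exact (h.tri a ha).memJ B hBa)
      (fun B hB => by
        obtain ⟨-, a, ha, hBa⟩ := hG' B hB
        exact (h.tri a ha).ny B hBa)
      (fun B hB => (hG' B hB).1)
    calc (#(G'.image fun B => ⌊Y B / δ'⌋) : ℝ) ≤ 3 * #J := h1
      _ ≤ 3 * (K * L) := mul_le_mul_of_nonneg_left hT.cJ (by norm_num)
      _ = 3 * K * L := by ring

end Vale.Agent.P065.H240
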