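import Vale.Agent.P065.H240.Tri

/-!
# P065, upper bound, ONE RESOLUTION (helper240), part C: matching of `x` and `y` concentrations
(helper410, note 18699)
-/

set_option autoImplicit false

namespace Vale.Agent.P065.H240

open Finset

variable {γ ι κ β : Type} {K L μ : ℝ} {C : Finset γ} {X Y Z : γ → ℝ}
    {I : Finset ι} {p u : ι → ℝ} {i : γ → ι} {J : Finset κ} {q v : κ → ℝ} {j : γ → κ}
    {KK : Finset β} {r w : β → ℝ} {k : γ → β}

open Classical in
/-- every label present in `C` has at least `d` cells -/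
def Rich {γ ι : Type} (d : ℝ) (C : Finset γ) (i : γ → ι) : Prop :=
  ∀ B ∈ C, d ≤ #{B' ∈ C | i B' = i B}

open Classical in
/-- cells whose label belongs to a given set of labels of `C` -/
theorem rich_card {γ ι : Type} {d : ℝ} {C : Finset γ} {i : γ → ι} (h : Rich d C i)
    (S : Finset ι) (hS : ∀ a ∈ S, ∃ B ∈ C, i B = a) (F : Finset γ)
    (hF : ∀ B ∈ C, i B ∈ S → B ∈ F) : d * #S ≤ #F := by
  have h1 : (#{B ∈ C | i B ∈ S} : ℝ) ≤ #F := by
    have : ({B ∈ C | i B ∈ S} : Finset γ) ⊆ F := by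
      intro B hB
      rw [mem_filter] at hB
      exact hF B hB.1 hB.2
    exact_mod_cast card_le_card this
  refine le_trans ?_ h1
  have h2 : #{B ∈ C | i B ∈ S} = ∑ a ∈ S, #{B ∈ C | i B = a} := by
    rw [card_eq_sum_card_fiberwise (f := i) (t := S) (fun B hB => by
      exact mem_coe.2 (mem_filter.1 (mem_coe.1 hB)).2)]
    refine sum_congr rfl fun a ha => ?_
    congr 1
    ext B
    simp only [mem_filter]
    constructor
    · rintro ⟨⟨h1, -⟩, h2⟩
      exact ⟨h1, h2⟩
    · rintro ⟨h1, h2⟩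
      exact ⟨⟨h1, h2 ▸ ha⟩, h2⟩
  rw [h2]
  push_cast
  calc d * #S = ∑ a ∈ S, d := by rw [sum_const, nsmul_eq_mul, mul_comm]
    _ ≤ _ := sum_le_sum fun a ha => by
        obtain ⟨B, hB, rfl⟩ := hS a ha
        exact h B hB

open Classical in
/-- the number of labels of the second pencil over a `y`-interval -/
theorem labels_over {γ κ : Type} {d M g y0 : ℝ} {C : Finset γ} {Y : γ → ℝ} {J : Finset κ}
    {q v : κ → ℝ} {j : γ → κ}
    (sepV : ∀ a ∈ J, ∀ b ∈ J, a ≠ b → v a + v b ≤ |q a - q b|)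
    (memJ : ∀ B ∈ C, j B ∈ J) (ny : ∀ B ∈ C, |Y B - q (j B)| ≤ v (j B))
    (hd : 0 < d) (hJ : Rich d C j)
    (hM : (#{B ∈ C | |Y B - y0| ≤ g} : ℝ) ≤ M) :
    (#(({B ∈ C | |Y B - y0| ≤ g} : Finset γ).image j) : ℝ) ≤ M / d + 4 := by
  set D : Finset γ := {B ∈ C | |Y B - y0| ≤ g} with hD
  set Jin : Finset κ := {a ∈ D.image j | ∀ B ∈ C, j B = a → |Y B - y0| ≤ g} with hJin
  set Ja : Finset κ := {a ∈ D.image j | 0 < v a ∧ |q a - (y0 + g)| ≤ v a} with hJa
  set Jb : Finset κ := {a ∈ D.image j | 0 < v a ∧ |q a - (y0 - g)| ≤ v a} with hJb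
  have hmemD : ∀ a ∈ D.image j, a ∈ J := by
    intro a ha
    obtain ⟨B, hB, rfl⟩ := mem_image.1 ha
    exact memJ B (mem_filter.1 hB).1
  have h1 : d * #Jin ≤ #D := by
    refine rich_card hJ Jin (fun a ha => ?_) D (fun B hB hBa => ?_)
    · obtain ⟨B, hB, hBa⟩ := mem_image.1 (mem_filter.1 ha).1
      exact ⟨B, (mem_filter.1 hB).1, hBa⟩
    · exact mem_filter.2 ⟨hB, (mem_filter.1 hBa).2 B hB rfl⟩
  have h2 : (#Ja : ℝ) ≤ 2 := cover_le_two Ja q v (fun a ha => (mem_filter.1 ha).2.1)
    (fun a ha b hb hab => sepV a (hmemD a (mem_filter.1 ha).1) b (hmemD b (mem_filter.1 hb).1) hab)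
    (fun a ha => (mem_filter.1 ha).2.2)
  have h3 : (#Jb : ℝ) ≤ 2 := cover_le_two Jb q v (fun a ha => (mem_filter.1 ha).2.1)
    (fun a ha b hb hab => sepV a (hmemD a (mem_filter.1 ha).1) b (hmemD b (mem_filter.1 hb).1) hab)
    (fun a ha => (mem_filter.1 ha).2.2)
  have h4 : D.image j ⊆ Jin ∪ (Ja ∪ Jb) := by
    intro a ha
    by_cases hin : ∀ B ∈ C, j B = a → |Y B - y0| ≤ g
    · exact mem_union_left _ (mem_filter.2 ⟨ha, hin⟩)
    · push Not at hin
      obtain ⟨B', hB', hBa', hout⟩ := hin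
      obtain ⟨B, hB, hBa⟩ := mem_image.1 ha
      have hBC := (mem_filter.1 hB).1
      have hBy := abs_le.1 (mem_filter.1 hB).2
      have n1 := ny B hBC
      have n2 := ny B' hB'
      rw [hBa] at n1
      rw [hBa'] at n2
      have n1' := abs_le.1 n1
      have n2' := abs_le.1 n2
      refine mem_union_right _ ?_
      rcases lt_abs.1 hout with ho | ho
      · refine mem_union_left _ (mem_filter.2 ⟨ha, ?_, ?_⟩)
        · linarith [n1'.1, n1'.2, n2'.1, n2'.2, hBy.1, hBy.2]
        · rw [abs_le]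
          constructor <;> linarith [n1'.1, n1'.2, n2'.1, n2'.2, hBy.1, hBy.2]
      · refine mem_union_right _ (mem_filter.2 ⟨ha, ?_, ?_⟩)
        · linarith [n1'.1, n1'.2, n2'.1, n2'.2, hBy.1, hBy.2]
        · rw [abs_le]
          constructor <;> linarith [n1'.1, n1'.2, n2'.1, n2'.2, hBy.1, hBy.2]
  have h5 : (#(D.image j) : ℝ) ≤ #Jin + (#Ja + #Jb) := by
    have := (card_le_card h4).trans ((card_union_le _ _).trans
      (Nat.add_le_add_left (card_union_le _ _) _))
    exact_mod_cast this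
  have h6 : (#Jin : ℝ) ≤ M / d := by
    rw [le_div_iff₀ hd, mul_comm]
    linarith
  linarith

open Classical in
/-- **matching lemma**: a `y`-interval of half-length `g` with `M` cells produces many cells with a
narrow first strip in `x`-intervals of half-length `6 K g` which contain many cells -/
theorem match_y (h : Tri K L μ C X Y Z I p u i J q v j KK r w k) {d g y0 : ℝ} (hd : 0 < d)
    (hdL : d ≤ L) (hI : Rich (d * μ) C i) (hJ : Rich (d * μ) C j) (hg : 0 < g)
    (hM : 48 * K ^ 3 * L * μ ≤ #{B ∈ C | |Y B - y0| ≤ g}) :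
    ∃ H ⊆ C, d * d * μ ≤ 20 * K * #H ∧ (∀ B ∈ H, u (i B) ≤ g ∧ ∃ x0, |X B - x0| ≤ 6 * K * g ∧
      d * #{B ∈ C | |Y B - y0| ≤ g} ≤ 4 * K ^ 2 * L * #{B' ∈ C | |X B' - x0| ≤ 6 * K * g}) := by
  have hK : 0 < K := lt_of_lt_of_le one_pos h.oneK
  have hK1 := h.oneK
  have hL := h.posL
  have hμ := h.posM
  have hdμ : 0 < d * μ := by positivity
  have hdLμ : d * μ ≤ L * μ := mul_le_mul_of_nonneg_right hdL hμ.le
  set D : Finset γ := {B ∈ C | |Y B - y0| ≤ g} with hD
  set M : ℝ := (#D : ℝ) with hMdef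
  have hKK : (1 : ℝ) ≤ K ^ 3 := one_le_pow₀ hK1
  have hLμ : 0 < L * μ := by positivity
  have hML : 48 * (L * μ) ≤ M := by
    refine le_trans ?_ hM
    calc 48 * (L * μ) = (48 * (L * μ)) * 1 := by ring
      _ ≤ (48 * (L * μ)) * K ^ 3 := mul_le_mul_of_nonneg_left hKK (by positivity)
      _ = 48 * K ^ 3 * L * μ := by ring
  have hM0 : 0 < M := by linarith
  set D1 : Finset γ := {B ∈ D | M ≤ 2 * K * L * #{B' ∈ D | k B' = k B}} with hD1
  set D2 : Finset γ := {B ∈ D1 | ¬ (g ≤ u (i B) ∨ g ≤ w (k B))} with hD2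
  -- `D \ D1`
  have s1 : (#(D \ D1) : ℝ) ≤ M / 2 := by
    have e1 : (#(D \ D1) : ℝ) ≤ M / (2 * K * L) * #((D \ D1).image k) := by
      refine card_le_mul_image (D \ D1) k (fun c hc => ?_)
      obtain ⟨B, hB, rfl⟩ := mem_image.1 hc
      rw [mem_sdiff] at hB
      have hlt : ¬ (M ≤ 2 * K * L * #{B' ∈ D | k B' = k B}) := fun hcon =>
        hB.2 (mem_filter.2 ⟨hB.1, hcon⟩)
      push Not at hlt
      have hsub : ({a ∈ D \ D1 | k a = k B} : Finset γ) ⊆ {B' ∈ D | k B' = k B} :=
        filter_subset_filter _ sdiff_subset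
      have hcard : (#{a ∈ D \ D1 | k a = k B} : ℝ) ≤ #{B' ∈ D | k B' = k B} := by
        exact_mod_cast card_le_card hsub
      rw [le_div_iff₀ (by positivity)]
      calc (#{a ∈ D \ D1 | k a = k B} : ℝ) * (2 * K * L)
          ≤ #{B' ∈ D | k B' = k B} * (2 * K * L) :=
            mul_le_mul_of_nonneg_right hcard (by positivity)
        _ ≤ M := by linarith
    have e2 : (#((D \ D1).image k) : ℝ) ≤ K * L := by
      refine le_trans ?_ h.cK
      have : (D \ D1).image k ⊆ KK := by
        intro a ha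
        obtain ⟨B, hB, rfl⟩ := mem_image.1 ha
        exact h.memK B (mem_filter.1 (mem_sdiff.1 hB).1).1
      exact_mod_cast card_le_card this
    calc (#(D \ D1) : ℝ) ≤ M / (2 * K * L) * #((D \ D1).image k) := e1
      _ ≤ M / (2 * K * L) * (K * L) := mul_le_mul_of_nonneg_left e2 (by positivity)
      _ = M / 2 := by field_simp
  have s2 : (#(D1 \ D2) : ℝ) ≤ M / 4 := by
    have e1 := orient h (g := g) (y0 := y0) hg
    have e2 : D1 \ D2 ⊆ {B ∈ C | |Y B - y0| ≤ g ∧ (g ≤ u (i B) ∨ g ≤ w (k B))} := by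
      intro B hB
      rw [mem_sdiff] at hB
      have hBD : B ∈ D := (mem_filter.1 hB.1).1
      have hBD' := mem_filter.1 hBD
      refine mem_filter.2 ⟨hBD'.1, hBD'.2, ?_⟩
      by_contra hcon
      exact hB.2 (mem_filter.2 ⟨hB.1, hcon⟩)
    have e3 : (#(D1 \ D2) : ℝ) ≤ 12 * K ^ 3 * L * μ :=
      le_trans (by exact_mod_cast card_le_card e2) e1
    linarith
  have s3 : M / 4 ≤ #D2 := by
    have e1 : #D ≤ #(D \ D1) + (#(D1 \ D2) + #D2) := by
      have e2 : D ⊆ (D \ D1) ∪ ((D1 \ D2) ∪ D2) := by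
        intro B hB
        by_cases h1 : B ∈ D1
        · by_cases h2 : B ∈ D2
          · simp [h2]
          · simp [h1, h2]
        · simp [hB, h1]
      exact (card_le_card e2).trans ((card_union_le _ _).trans
        (Nat.add_le_add_left (card_union_le _ _) _))
    have e2 : (#D : ℝ) ≤ #(D \ D1) + (#(D1 \ D2) + #D2) := by exact_mod_cast e1
    linarith
  have hDC : D ⊆ C := filter_subset _ _
  have hD1D : D1 ⊆ D := filter_subset _ _
  have hD2D1 : D2 ⊆ D1 := filter_subset _ _
  -- position of the cells of a strip `k B`, `B ∈ D2`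
  have pos : ∀ B ∈ D2, ∀ B' ∈ D, k B' = k B → |X B' - X B| ≤ 4 * K * g := by
    intro B hB B' hB' hk
    have hBD : B ∈ D := hD1D (hD2D1 hB)
    have h1 := h.nz B' (hDC hB')
    rw [hk] at h1
    have h1' := h.nz B (hDC hBD)
    have h2 : w (k B) < g := by
      have := (mem_filter.1 hB).2
      push Not at this
      exact this.2
    have h3 := h.qx B' (hDC hB') B (hDC hBD)
    refine h3.trans ?_
    calc K * (|Y B' - Y B| + |Z B' - Z B|) ≤ K * (2 * g + 2 * w (k B)) :=
          mul_le_mul_of_nonneg_left (add_le_add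
            (two_pts (mem_filter.1 hB').2 (mem_filter.1 hBD).2) (two_pts h1 h1')) hK.le
      _ ≤ K * (4 * g) := mul_le_mul_of_nonneg_left (by linarith) hK.le
      _ = 4 * K * g := by ring
  -- cells of a narrow label which has a cell in the strip `k B`
  have pos2 : ∀ B ∈ D2, ∀ B' ∈ D, k B' = k B → u (i B') ≤ g → ∀ B'' ∈ C, i B'' = i B' →
      |X B'' - X B| ≤ 6 * K * g := by
    intro B hB B' hB' hk hu B'' hB'' hi
    have h1 := pos B hB B' hB' hk
    have h2 := h.nx B' (hDC hB')
    have h3 := h.nx B'' hB''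
    rw [hi] at h3
    have h4 : X B'' - X B = (X B'' - X B') + (X B' - X B) := by ring
    rw [h4]
    refine (abs_add_le _ _).trans ?_
    have h5 := two_pts h3 h2
    have h6 : 2 * g ≤ 2 * K * g := by nlinarith
    linarith
  refine ⟨{B ∈ C | i B ∈ D2.image i}, filter_subset _ _, ?_, ?_⟩
  · -- size of `H`
    have a1 : d * μ * #(D2.image i) ≤ #{B ∈ C | i B ∈ D2.image i} := by
      refine rich_card hI (D2.image i) (fun a ha => ?_) _ (fun B hB hBa => ?_)
      · obtain ⟨B, hB, hBa⟩ := mem_image.1 ha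
        exact ⟨B, hDC (hD1D (hD2D1 hB)), hBa⟩
      · exact mem_filter.2 ⟨hB, hBa⟩
    have a2 : (#D2 : ℝ) ≤ (K * μ * (M / (d * μ) + 4)) * #(D2.image i) := by
      refine card_le_mul_image D2 i (fun a _ => ?_)
      set F : Finset γ := {B ∈ D2 | i B = a} with hF
      have b1 : (#F : ℝ) ≤ K * μ * #(F.image j) := by
        refine card_le_mul_image F j (fun c _ => ?_)
        refine le_trans ?_ (h.pij a c)
        have : ({B ∈ F | j B = c} : Finset γ) ⊆ {B ∈ C | i B = a ∧ j B = c} := by
          intro B hB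
          rw [mem_filter, hF, mem_filter] at hB
          exact mem_filter.2 ⟨hDC (hD1D (hD2D1 hB.1.1)), hB.1.2, hB.2⟩
        exact_mod_cast card_le_card this
      have b2 : (#(F.image j) : ℝ) ≤ M / (d * μ) + 4 := by
        refine le_trans ?_ (labels_over (M := M) (g := g) (y0 := y0) h.sepV h.memJ h.ny hdμ hJ
          le_rfl)
        have : F.image j ⊆ D.image j :=
          image_subset_image ((filter_subset _ _).trans (hD2D1.trans hD1D))
        exact_mod_cast card_le_card this
      exact b1.trans (mul_le_mul_of_nonneg_left b2 (by positivity))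
    have a3 : M / (d * μ) + 4 ≤ 5 * (M / (d * μ)) := by
      have : 1 ≤ M / (d * μ) := by
        rw [le_div_iff₀ hdμ]
        linarith
      linarith
    have a4 : M / 4 ≤ (K * μ * (5 * (M / (d * μ)))) * #(D2.image i) :=
      s3.trans (a2.trans (mul_le_mul_of_nonneg_right
        (mul_le_mul_of_nonneg_left a3 (by positivity)) (Nat.cast_nonneg _)))
    have a5 : d ≤ 20 * K * #(D2.image i) := by
      have e1 : (K * μ * (5 * (M / (d * μ)))) * (#(D2.image i) : ℝ)
          = (M / (4 * d)) * (20 * K * #(D2.image i)) := by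
        field_simp
        ring
      rw [e1] at a4
      have e2 : M / 4 = (M / (4 * d)) * d := by
        field_simp
      rw [e2] at a4
      exact le_of_mul_le_mul_left a4 (by positivity)
    calc d * d * μ = d * μ * d := by ring
      _ ≤ d * μ * (20 * K * #(D2.image i)) := mul_le_mul_of_nonneg_left a5 hdμ.le
      _ = 20 * K * (d * μ * #(D2.image i)) := by ring
      _ ≤ 20 * K * #{B ∈ C | i B ∈ D2.image i} := mul_le_mul_of_nonneg_left a1 (by positivity)
  · intro B'' hB''
    rw [mem_filter] at hB''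
    obtain ⟨hB''C, hB''i⟩ := hB''
    obtain ⟨B, hB, hBi⟩ := mem_image.1 hB''i
    have hBD1 : B ∈ D1 := hD2D1 hB
    have hBD : B ∈ D := hD1D hBD1
    have hnar : u (i B) < g ∧ w (k B) < g := by
      have := (mem_filter.1 hB).2
      push Not at this
      exact this
    refine ⟨?_, X B, ?_, ?_⟩
    · rw [← hBi]; exact hnar.1.le
    · exact pos2 B hB B hBD rfl hnar.1.le B'' hB''C hBi.symm
    · -- many cells in this `x`-interval
      set Dk : Finset γ := {B' ∈ D | k B' = k B} with hDk
      have g1 : M ≤ 2 * K * L * #Dk := (mem_filter.1 hBD1).2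
      set Dn : Finset γ := {B' ∈ Dk | u (i B') ≤ g} with hDn
      -- wide ones are few
      have g2 : (#(Dk \ Dn) : ℝ) ≤ K * μ * (4 * K + 2) := by
        have b1 : (#(Dk \ Dn) : ℝ) ≤ K * μ * #((Dk \ Dn).image i) := by
          refine card_le_mul_image (Dk \ Dn) i (fun c _ => ?_)
          refine le_trans ?_ (h.pik c (k B))
          have : ({B' ∈ Dk \ Dn | i B' = c} : Finset γ) ⊆ {B' ∈ C | i B' = c ∧ k B' = k B} := by
            intro B' hB'
            rw [mem_filter, mem_sdiff] at hB'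
            have h1 := mem_filter.1 hB'.1.1
            exact mem_filter.2 ⟨hDC h1.1, hB'.2, h1.2⟩
          exact_mod_cast card_le_card this
        have b2 : (#((Dk \ Dn).image i) : ℝ) ≤ 4 * K + 2 := by
          have e3 := meet_count ((Dk \ Dn).image i) p u (ρ := g) (τ := (4 * K) * g)
            (q := X B) hg (by positivity) ?_ ?_ ?_
          · rw [mul_div_assoc, div_self hg.ne'] at e3
            linarith
          · intro c hc
            obtain ⟨B', hB', rfl⟩ := mem_image.1 hc
            rw [mem_sdiff] at hB'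
            by_contra hcon
            push Not at hcon
            exact hB'.2 (mem_filter.2 ⟨hB'.1, hcon.le⟩)
          · have hc1 : ∀ c ∈ (Dk \ Dn).image i, c ∈ I := by
              intro c hc
              obtain ⟨B', hB', rfl⟩ := mem_image.1 hc
              exact h.memI B' (hDC (mem_filter.1 (mem_sdiff.1 hB').1).1)
            intro c hc c' hc' hcc
            exact h.sepU c (hc1 c hc) c' (hc1 c' hc') hcc
          · intro c hc
            obtain ⟨B', hB', rfl⟩ := mem_image.1 hc
            have h1 := mem_filter.1 (mem_sdiff.1 hB').1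
            exact cen (h.nx B' (hDC h1.1)) (pos B hB B' h1.1 h1.2)
        exact b1.trans (mul_le_mul_of_nonneg_left b2 (by positivity))
      have g3 : (#Dk : ℝ) ≤ #(Dk \ Dn) + #Dn := by
        have : Dn ⊆ Dk := filter_subset _ _
        have := card_sdiff_add_card_eq_card this
        have : #Dk ≤ #(Dk \ Dn) + #Dn := by omega
        exact_mod_cast this
      have g4 : M ≤ 4 * K * L * #Dn := by
        have e1 : K * μ * (4 * K + 2) ≤ 6 * K ^ 2 * μ := by
          have : 4 * K + 2 ≤ 6 * K := by linarith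
          calc K * μ * (4 * K + 2) ≤ K * μ * (6 * K) :=
                mul_le_mul_of_nonneg_left this (by positivity)
            _ = 6 * K ^ 2 * μ := by ring
        have e2 : M ≤ 2 * K * L * (6 * K ^ 2 * μ + #Dn) := by
          refine g1.trans (mul_le_mul_of_nonneg_left ?_ (by positivity))
          linarith
        have e3 : 2 * K * L * (6 * K ^ 2 * μ + (#Dn : ℝ))
            = (12 * K ^ 3 * L * μ) + 2 * K * L * #Dn := by ring
        rw [e3] at e2
        have e4 : 0 < K ^ 3 * L * μ := by positivity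
        have e5 : 48 * (K ^ 3 * L * μ) ≤ M := by
          refine le_trans (le_of_eq ?_) hM
          ring
        have e6 : 12 * K ^ 3 * L * μ = 12 * (K ^ 3 * L * μ) := by ring
        rw [e6] at e2
        linarith
      have g5 : (#Dn : ℝ) ≤ K * μ * #(Dn.image i) := by
        refine card_le_mul_image Dn i (fun c _ => ?_)
        refine le_trans ?_ (h.pik c (k B))
        have : ({B' ∈ Dn | i B' = c} : Finset γ) ⊆ {B' ∈ C | i B' = c ∧ k B' = k B} := by
          intro B' hB'
          rw [mem_filter] at hB'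
          have h1 := mem_filter.1 (mem_filter.1 hB'.1).1
          exact mem_filter.2 ⟨hDC h1.1, hB'.2, h1.2⟩
        exact_mod_cast card_le_card this
      have g6 : d * μ * #(Dn.image i) ≤ #{B' ∈ C | |X B' - X B| ≤ 6 * K * g} := by
        refine rich_card hI (Dn.image i) (fun a ha => ?_) _ (fun B₂ hB₂ hB₂i => ?_)
        · obtain ⟨B', hB', hBa⟩ := mem_image.1 ha
          exact ⟨B', hDC (mem_filter.1 (mem_filter.1 hB').1).1, hBa⟩
        · obtain ⟨B', hB', hBa⟩ := mem_image.1 hB₂i
          have h1 := mem_filter.1 hB'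
          have h2 := mem_filter.1 h1.1
          exact mem_filter.2 ⟨hB₂, pos2 B hB B' h2.1 h2.2 h1.2 B₂ hB₂ hBa.symm⟩
      calc d * M ≤ d * (4 * K * L * (K * μ * #(Dn.image i))) := by
            refine mul_le_mul_of_nonneg_left (g4.trans ?_) hd.le
            exact mul_le_mul_of_nonneg_left g5 (by positivity)
        _ = 4 * K ^ 2 * L * (d * μ * #(Dn.image i)) := by ring
        _ ≤ _ := mul_le_mul_of_nonneg_left g6 (by positivity)

end Vale.Agent.P065.H240
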