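import Vale.Agent.P065.H240.Reso

/-!
# P065, upper bound, ONE RESOLUTION (helper240), part F: all classes
(helper410, note 18699)
-/

set_option autoImplicit false

namespace Vale.Agent.P065.H240

open Finset

section transfer

variable {γ ι κ β : Type} {K L μ : ℝ} {C : Finset γ} {X Y Z : γ → ℝ}
    {I : Finset ι} {p u : ι → ℝ} {i : γ → ι} {J : Finset κ} {q v : κ → ℝ} {j : γ → κ}
    {KK : Finset β} {r w : β → ℝ} {k : γ → β}

open Classical in
/-- few exceptional cells of a class over a union of few `x`-intervals -/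
theorem transfer (h : Tri K L μ C X Y Z I p u i J q v j KK r w k) {δ N : ℝ} (hδ : 0 < δ)
    (H : Finset γ) (hH : (#(H.image fun B => ⌊X B / (2 * δ)⌋) : ℝ) ≤ N) :
    (#{B ∈ C | B ∈ H ∧ (δ ≤ v (j B) ∨ δ ≤ w (k B))} : ℝ) ≤ 12 * K ^ 3 * L * μ * N := by
  have hK : 0 < K := lt_of_lt_of_le one_pos h.oneK
  have hL := h.posL
  have hμ := h.posM
  set S : Finset γ := {B ∈ C | B ∈ H ∧ (δ ≤ v (j B) ∨ δ ≤ w (k B))} with hS
  set c : γ → ℤ := fun B => ⌊X B / (2 * δ)⌋ with hc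
  have h1 : (#S : ℝ) ≤ 12 * K ^ 3 * L * μ * #(S.image c) := by
    refine card_le_mul_image S c (fun e _ => ?_)
    refine le_trans ?_ (orient_x h (x0 := (2 * (e : ℝ) + 1) * δ) hδ)
    have : ({B ∈ S | c B = e} : Finset γ) ⊆
        {B ∈ C | |X B - (2 * (e : ℝ) + 1) * δ| ≤ δ ∧ (δ ≤ v (j B) ∨ δ ≤ w (k B))} := by
      intro B hB
      rw [mem_filter, hS, mem_filter] at hB
      obtain ⟨⟨h1, -, h2⟩, h3⟩ := hB
      refine mem_filter.2 ⟨h1, ?_, h2⟩
      have g1 := Int.floor_le (X B / (2 * δ))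
      have g2 := Int.lt_floor_add_one (X B / (2 * δ))
      have h3' : ⌊X B / (2 * δ)⌋ = e := h3
      rw [h3'] at g1 g2
      rw [le_div_iff₀ (by positivity)] at g1
      rw [div_lt_iff₀ (by positivity)] at g2
      rw [abs_le]
      constructor <;> nlinarith
    exact_mod_cast card_le_card this
  have h2 : (#(S.image c) : ℝ) ≤ N := by
    refine le_trans ?_ hH
    have : S.image c ⊆ H.image c := by
      intro e he
      obtain ⟨B, hB, rfl⟩ := mem_image.1 he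
      exact mem_image_of_mem _ (mem_filter.1 hB).2.1
    exact_mod_cast card_le_card this
  exact h1.trans (mul_le_mul_of_nonneg_left h2 (by positivity))

end transfer

section prune

open Classical in
/-- the functional of the pruning -/
noncomputable def gain {γ ι κ : Type} (d : ℝ) (i : γ → ι) (j : γ → κ) (C : Finset γ) : ℝ :=
  #C - d * (#(C.image i) + #(C.image j))

open Classical in
theorem gain_rich {γ ι κ : Type} {d : ℝ} (hd : 0 ≤ d) {i : γ → ι} {j : γ → κ}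
    {C0 C1 : Finset γ} (h0 : C0 ⊆ C1) (hmax : ∀ C' ⊆ C1, gain d i j C' ≤ gain d i j C0) :
    Rich d C0 i := by
  intro B hB
  by_contra hcon
  push Not at hcon
  set F : Finset γ := {B' ∈ C0 | i B' = i B} with hF
  have h1 := hmax (C0 \ F) (sdiff_subset.trans h0)
  unfold gain at h1
  have h2 : (#(C0 \ F) : ℝ) = #C0 - #F := by
    have : F ⊆ C0 := filter_subset _ _
    have := card_sdiff_add_card_eq_card this
    have h3 : (#(C0 \ F) : ℝ) + #F = #C0 := by exact_mod_cast this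
    linarith
  have h3 : (#((C0 \ F).image i) : ℝ) ≤ #(C0.image i) - 1 := by
    have h4 : (C0 \ F).image i ⊆ (C0.image i).erase (i B) := by
      intro e he
      obtain ⟨B', hB', rfl⟩ := mem_image.1 he
      rw [mem_sdiff] at hB'
      refine mem_erase.2 ⟨fun heq => hB'.2 (mem_filter.2 ⟨hB'.1, heq⟩),
        mem_image_of_mem _ hB'.1⟩
    have h5 := card_le_card h4
    have h6 : i B ∈ C0.image i := mem_image_of_mem _ hB
    have h7 := card_erase_add_one h6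
    have h8 : #((C0 \ F).image i) + 1 ≤ #(C0.image i) := by omega
    have h9 : (#((C0 \ F).image i) : ℝ) + 1 ≤ #(C0.image i) := by exact_mod_cast h8
    linarith
  have h4 : (#((C0 \ F).image j) : ℝ) ≤ #(C0.image j) := by
    exact_mod_cast card_le_card (image_subset_image sdiff_subset)
  have h5 : d * (#((C0 \ F).image i) + #((C0 \ F).image j))
      ≤ d * ((#(C0.image i) : ℝ) - 1 + #(C0.image j)) :=
    mul_le_mul_of_nonneg_left (add_le_add h3 h4) hd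
  rw [h2] at h1
  have h6 : d * ((#(C0.image i) : ℝ) - 1 + #(C0.image j))
      = d * (#(C0.image i) + #(C0.image j)) - d := by ring
  linarith

open Classical in
/-- a subset all of whose labels are rich -/
theorem prune {γ ι κ : Type} (C1 : Finset γ) (i : γ → ι) (j : γ → κ) {d s t : ℝ} (hd : 0 ≤ d)
    (hs : (#(C1.image i) : ℝ) ≤ s) (ht : (#(C1.image j) : ℝ) ≤ t) :
    ∃ C0 ⊆ C1, Rich d C0 i ∧ Rich d C0 j ∧ #C1 - d * (s + t) ≤ #C0 := by
  obtain ⟨C0, hC0, hmax⟩ := exists_max_image C1.powerset (gain d i j)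
    ⟨C1, mem_powerset.2 (subset_refl _)⟩
  have h0 : C0 ⊆ C1 := mem_powerset.1 hC0
  have hmax' : ∀ C' ⊆ C1, gain d i j C' ≤ gain d i j C0 := fun C' hC' =>
    hmax C' (mem_powerset.2 hC')
  refine ⟨C0, h0, gain_rich hd h0 hmax', ?_, ?_⟩
  · refine gain_rich (i := j) (j := i) hd h0 (fun C' hC' => ?_)
    have := hmax' C' hC'
    unfold gain at this ⊢
    rw [add_comm (#(C'.image j) : ℝ), add_comm (#(C0.image j) : ℝ)]
    exact this
  · have h1 := hmax' C1 (subset_refl _)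
    unfold gain at h1
    have h2 : d * (#(C1.image i) + #(C1.image j)) ≤ d * (s + t) :=
      mul_le_mul_of_nonneg_left (add_le_add hs ht) hd
    have h3 : 0 ≤ d * ((#(C0.image i) : ℝ) + #(C0.image j)) := by positivity
    linarith

end prune

open Classical in
/-- the system of all classes -/
structure Sys {α γ ι κ β : Type} (K L μ : ℝ) (A : Finset α) (C : Finset γ) (Ca : α → Finset γ)
    (X Y : γ → ℝ) (Z : α → γ → ℝ) (I : Finset ι) (p u : ι → ℝ) (i : γ → ι)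
    (J : Finset κ) (q v : κ → ℝ) (j : γ → κ) (KK : α → Finset β) (r w : α → β → ℝ)
    (k : α → γ → β) : Prop where
  ne : A.Nonempty
  tri : ∀ a ∈ A, Tri K L μ (Ca a) X Y (Z a) I p u i J q v j (KK a) (r a) (w a) (k a)
  sub : ∀ a ∈ A, Ca a ⊆ C
  memI : ∀ B ∈ C, i B ∈ I
  memJ : ∀ B ∈ C, j B ∈ J
  pij : ∀ s t, (#{B ∈ C | i B = s ∧ j B = t} : ℝ) ≤ K * μ
  v1 : ∀ b ∈ J, 0 < v b
  mass : L ^ 2 * μ * #A ≤ K * ∑ a ∈ A, (#(Ca a) : ℝ)

variable {α γ ι κ β : Type} {K L μ : ℝ} {A : Finset α} {C : Finset γ} {Ca : α → Finset γ}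
    {X Y : γ → ℝ} {Z : α → γ → ℝ} {I : Finset ι} {p u : ι → ℝ} {i : γ → ι}
    {J : Finset κ} {q v : κ → ℝ} {j : γ → κ} {KK : α → Finset β} {r w : α → β → ℝ}
    {k : α → γ → β}

open Classical in
theorem double_count (A : Finset α) (Ca : α → Finset γ) (H : Finset γ) :
    ∑ a ∈ A, (#{B ∈ H | B ∈ Ca a} : ℝ) = ∑ B ∈ H, (#{a ∈ A | B ∈ Ca a} : ℝ) := by
  have : ∑ a ∈ A, #{B ∈ H | B ∈ Ca a} = ∑ B ∈ H, #{a ∈ A | B ∈ Ca a} := by
    simp only [card_filter]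
    exact sum_comm
  exact_mod_cast this

open Classical in
/-- a class with many popular cells -/
theorem popular (h : Sys K L μ A C Ca X Y Z I p u i J q v j KK r w k) :
    ∃ a ∈ A, ∃ C1 ⊆ Ca a, L ^ 2 * μ / (2 * K) ≤ #C1 ∧
      ∀ B ∈ C1, (#A : ℝ) ≤ 2 * K ^ 4 * #{a ∈ A | B ∈ Ca a} := by
  obtain ⟨a₁, ha₁⟩ := h.ne
  have hT := h.tri a₁ ha₁
  have hK1 := hT.oneK
  have hK : 0 < K := lt_of_lt_of_le one_pos hK1
  have hL := hT.posL
  have hμ := hT.posM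
  have hCc : (#C : ℝ) ≤ K ^ 3 * L ^ 2 * μ :=
    card_cells hK.le hL.le hμ.le hT.cI hT.cJ h.memI h.memJ h.pij
  set n : γ → ℝ := fun B => (#{a ∈ A | B ∈ Ca a} : ℝ) with hn
  set Cs : Finset γ := {B ∈ C | (#A : ℝ) ≤ 2 * K ^ 4 * n B} with hCs
  have h1 : ∑ a ∈ A, (#(Ca a) : ℝ) = ∑ B ∈ C, n B := by
    rw [← double_count A Ca C]
    refine sum_congr rfl fun a ha => ?_
    congr 2
    ext B
    rw [mem_filter]
    exact ⟨fun hB => ⟨h.sub a ha hB, hB⟩, fun hB => hB.2⟩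
  have h2 : ∑ B ∈ C, n B = ∑ B ∈ Cs, n B + ∑ B ∈ C \ Cs, n B := by
    have : Cs ⊆ C := filter_subset _ _
    rw [add_comm, sum_sdiff this]
  have h3 : ∑ B ∈ C \ Cs, n B ≤ L ^ 2 * μ * #A / (2 * K) := by
    have e1 : ∀ B ∈ C \ Cs, n B ≤ #A / (2 * K ^ 4) := by
      intro B hB
      rw [mem_sdiff] at hB
      have : ¬ ((#A : ℝ) ≤ 2 * K ^ 4 * n B) := fun hcon => hB.2 (mem_filter.2 ⟨hB.1, hcon⟩)
      push Not at this
      rw [le_div_iff₀ (by positivity)]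
      linarith
    calc ∑ B ∈ C \ Cs, n B ≤ ∑ _B ∈ C \ Cs, (#A : ℝ) / (2 * K ^ 4) := sum_le_sum e1
      _ = #(C \ Cs) * ((#A : ℝ) / (2 * K ^ 4)) := by rw [sum_const, nsmul_eq_mul]
      _ ≤ (K ^ 3 * L ^ 2 * μ) * ((#A : ℝ) / (2 * K ^ 4)) := by
          refine mul_le_mul_of_nonneg_right ?_ (by positivity)
          refine le_trans ?_ hCc
          exact_mod_cast card_le_card sdiff_subset
      _ = L ^ 2 * μ * #A / (2 * K) := by
          field_simp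
  have h4 : L ^ 2 * μ * #A / K ≤ ∑ B ∈ C, n B := by
    rw [div_le_iff₀ hK, ← h1, mul_comm _ K]
    exact h.mass
  have h5 : L ^ 2 * μ * #A / (2 * K) ≤ ∑ B ∈ Cs, n B := by
    have : L ^ 2 * μ * #A / K = L ^ 2 * μ * #A / (2 * K) + L ^ 2 * μ * #A / (2 * K) := by
      field_simp
      ring
    linarith
  have h6 : ∑ _a ∈ A, L ^ 2 * μ / (2 * K) ≤ ∑ a ∈ A, (#{B ∈ Cs | B ∈ Ca a} : ℝ) := by
    rw [double_count A Ca Cs, sum_const, nsmul_eq_mul]
    calc (#A : ℝ) * (L ^ 2 * μ / (2 * K)) = L ^ 2 * μ * #A / (2 * K) := by ring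
      _ ≤ _ := h5
  obtain ⟨a, ha, hle⟩ := exists_le_of_sum_le h.ne h6
  refine ⟨a, ha, {B ∈ Cs | B ∈ Ca a}, fun B hB => (mem_filter.1 hB).2, hle, fun B hB => ?_⟩
  exact (mem_filter.1 (mem_filter.1 hB).1).2

open Classical in
/-- **ONE RESOLUTION** (helper17 note 18500, helper410 note 18699, helper433) -/
theorem oneres (h : Sys K L μ A C Ca X Y Z I p u i J q v j KK r w k)
    (hLK : 12 * 10 ^ 7 * K ^ 20 ≤ L) :
    ∃ δ : ℝ, 0 < δ ∧ ∃ H ⊆ C,
      (∀ x0 y0 : ℝ, (#{B ∈ H | |X B - x0| ≤ δ ∧ |Y B - y0| ≤ δ} : ℝ)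
        ≤ 16 * 10 ^ 21 * K ^ 50 * μ) ∧
      ∃ A' ⊆ A, (#A : ℝ) ≤ 15360 * K ^ 12 * #A' ∧ ∃ G : α → Finset γ, ∀ a ∈ A',
        G a ⊆ H ∧ G a ⊆ Ca a ∧ L ^ 2 * μ ≤ 15360 * K ^ 9 * #(G a) ∧
        ∀ B ∈ G a, u (i B) ≤ δ ∧ v (j B) ≤ δ ∧ w a (k a B) ≤ δ := by
  obtain ⟨a₀, ha₀, C1, hC1, hC1c, hpop⟩ := popular h
  have hT := h.tri a₀ ha₀
  have hK1 := hT.oneK
  have hK : 0 < K := lt_of_lt_of_le one_pos hK1
  have hL := hT.posL
  have hμ := hT.posM
  set d : ℝ := L / (12 * K ^ 2) with hd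
  have hd0 : 0 < d := by positivity
  have hK2 : (1 : ℝ) ≤ K ^ 2 := one_le_pow₀ hK1
  have hdL : d ≤ L := by
    rw [hd, div_le_iff₀ (by positivity)]
    nlinarith
  have hLd : L ≤ 12 * K ^ 2 * d := by
    rw [hd]
    apply le_of_eq
    field_simp
  have hsI : (#(C1.image i) : ℝ) ≤ K * L := by
    refine le_trans ?_ hT.cI
    have : C1.image i ⊆ I := by
      intro e he
      obtain ⟨B, hB, rfl⟩ := mem_image.1 he
      exact hT.memI B (hC1 hB)
    exact_mod_cast card_le_card this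
  have hsJ : (#(C1.image j) : ℝ) ≤ K * L := by
    refine le_trans ?_ hT.cJ
    have : C1.image j ⊆ J := by
      intro e he
      obtain ⟨B, hB, rfl⟩ := mem_image.1 he
      exact hT.memJ B (hC1 hB)
    exact_mod_cast card_le_card this
  obtain ⟨C0, hC0, hRI, hRJ, hC0c⟩ := prune C1 i j (d := d * μ) (by positivity) hsI hsJ
  have hC0c' : L ^ 2 * μ / (3 * K) ≤ #C0 := by
    have e1 : d * μ * (K * L + K * L) = L ^ 2 * μ / (6 * K) := by
      rw [hd]
      field_simp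
      ring
    rw [e1] at hC0c
    have e2 : L ^ 2 * μ / (2 * K) = L ^ 2 * μ / (3 * K) + L ^ 2 * μ / (6 * K) := by
      field_simp
      ring
    linarith
  set M₀ : ℝ := 4 * 10 ^ 7 * K ^ 19 with hM₀
  have hM₀pos : 0 < M₀ := by positivity
  have hM₀6 : 10 ^ 3 * K ^ 6 ≤ M₀ := by
    have e1 : K ^ 6 ≤ K ^ 19 := pow_le_pow_right₀ hK1 (by norm_num)
    have e2 : 0 < K ^ 19 := by positivity
    rw [hM₀]
    nlinarith
  have hM₀C : M₀ * (L * μ) ≤ #C0 := by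
    refine le_trans ?_ hC0c'
    rw [le_div_iff₀ (by positivity)]
    calc M₀ * (L * μ) * (3 * K) = (12 * 10 ^ 7 * K ^ 20) * (L * μ) := by rw [hM₀]; ring
      _ ≤ L * (L * μ) := mul_le_mul_of_nonneg_right hLK (by positivity)
      _ = L ^ 2 * μ := by ring
  obtain ⟨δ, hδ, H, hHC0, hHd, hHu, hHm, hHg⟩ := resolution (hT.mono (hC0.trans hC1)) hd0 hdL hLd
    hRI hRJ hM₀6 hM₀C h.v1
  have hHcard : L ^ 2 * μ / (2880 * K ^ 5) ≤ #H := by
    rw [div_le_iff₀ (by positivity)]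
    have e1 : d * d * μ = L ^ 2 * μ / (144 * K ^ 4) := by
      rw [hd]
      field_simp
      norm_num
    rw [e1, div_le_iff₀ (by positivity)] at hHd
    calc L ^ 2 * μ ≤ 20 * K * #H * (144 * K ^ 4) := hHd
      _ = #H * (2880 * K ^ 5) := by ring
  have hHpop : ∀ B ∈ H, (#A : ℝ) ≤ 2 * K ^ 4 * #{a ∈ A | B ∈ Ca a} := fun B hB =>
    hpop B (hC0 (hHC0 hB))
  have hdens : L ^ 2 * μ * #A / (5760 * K ^ 9) ≤ ∑ a ∈ A, (#{B ∈ H | B ∈ Ca a} : ℝ) := by
    rw [double_count A Ca H]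
    have e1 : ∑ _B ∈ H, (#A : ℝ) / (2 * K ^ 4) ≤ ∑ B ∈ H, (#{a ∈ A | B ∈ Ca a} : ℝ) := by
      refine sum_le_sum fun B hB => ?_
      rw [div_le_iff₀ (by positivity)]
      linarith [hHpop B hB]
    refine le_trans ?_ e1
    rw [sum_const, nsmul_eq_mul]
    calc L ^ 2 * μ * #A / (5760 * K ^ 9)
        = (L ^ 2 * μ / (2880 * K ^ 5)) * (#A / (2 * K ^ 4)) := by
          field_simp
          ring
      _ ≤ #H * (#A / (2 * K ^ 4)) := mul_le_mul_of_nonneg_right hHcard (by positivity)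
  set G : α → Finset γ := fun a => {B ∈ H | B ∈ Ca a ∧ v (j B) < δ ∧ w a (k a B) < δ} with hG
  have hexc : ∀ a ∈ A, (#{B ∈ H | B ∈ Ca a} : ℝ) ≤ #(G a) + L ^ 2 * μ / (23040 * K ^ 9) := by
    intro a ha
    have hTa := h.tri a ha
    have e1 := transfer hTa hδ H hHg
    have e2 : 12 * K ^ 3 * L * μ * (144 * K ^ 7 * L / M₀) ≤ L ^ 2 * μ / (23040 * K ^ 9) := by
      rw [hM₀]
      have e3 : 12 * K ^ 3 * L * μ * (144 * K ^ 7 * L / (4 * 10 ^ 7 * K ^ 19))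
          = (39813120 / 40000000) * (L ^ 2 * μ / (23040 * K ^ 9)) := by
        field_simp
        norm_num
      rw [e3]
      have e4 : 0 ≤ L ^ 2 * μ / (23040 * K ^ 9) := by positivity
      nlinarith
    have e3 : ({B ∈ H | B ∈ Ca a} : Finset γ) ⊆ G a ∪
        {B ∈ Ca a | B ∈ H ∧ (δ ≤ v (j B) ∨ δ ≤ w a (k a B))} := by
      intro B hB
      rw [mem_filter] at hB
      rw [mem_union]
      by_cases hv : v (j B) < δ
      · by_cases hw : w a (k a B) < δ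
        · left
          exact mem_filter.2 ⟨hB.1, hB.2, hv, hw⟩
        · right
          exact mem_filter.2 ⟨hB.2, hB.1, Or.inr (not_lt.1 hw)⟩
      · right
        exact mem_filter.2 ⟨hB.2, hB.1, Or.inl (not_lt.1 hv)⟩
    have e4 : (#{B ∈ H | B ∈ Ca a} : ℝ) ≤ #(G a) +
        #{B ∈ Ca a | B ∈ H ∧ (δ ≤ v (j B) ∨ δ ≤ w a (k a B))} := by
      exact_mod_cast (card_le_card e3).trans (card_union_le _ _)
    linarith
  have hsum : L ^ 2 * μ * #A / (7680 * K ^ 9) ≤ ∑ a ∈ A, (#(G a) : ℝ) := by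
    have e1 : ∑ a ∈ A, (#{B ∈ H | B ∈ Ca a} : ℝ)
        ≤ ∑ a ∈ A, ((#(G a) : ℝ) + L ^ 2 * μ / (23040 * K ^ 9)) := sum_le_sum hexc
    rw [sum_add_distrib, sum_const, nsmul_eq_mul] at e1
    have e2 : L ^ 2 * μ * #A / (5760 * K ^ 9)
        = L ^ 2 * μ * #A / (7680 * K ^ 9) + #A * (L ^ 2 * μ / (23040 * K ^ 9)) := by
      field_simp
      ring
    linarith
  set τ : ℝ := L ^ 2 * μ / (15360 * K ^ 9) with hτ
  set A' : Finset α := {a ∈ A | τ ≤ #(G a)} with hA'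
  have hGc : ∀ a ∈ A, (#(G a) : ℝ) ≤ K ^ 3 * L ^ 2 * μ := by
    intro a ha
    have hTa := h.tri a ha
    have e1 : (#(Ca a) : ℝ) ≤ K ^ 3 * L ^ 2 * μ :=
      card_cells hK.le hL.le hμ.le hTa.cI hTa.cJ hTa.memI hTa.memJ hTa.pij
    refine le_trans ?_ e1
    have : G a ⊆ Ca a := fun B hB => (mem_filter.1 hB).2.1
    exact_mod_cast card_le_card this
  refine ⟨δ, hδ, H, ?_, ?_, A', filter_subset _ _, ?_, G, ?_⟩
  · exact fun B hB => h.sub a₀ ha₀ (hC1 (hC0 (hHC0 hB)))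
  · intro x0 y0
    have e1 := hHm x0 y0
    have e2 : ({B ∈ H | |X B - x0| ≤ δ ∧ |Y B - y0| ≤ δ} : Finset γ)
        ⊆ {B ∈ C0 | |X B - x0| ≤ δ ∧ |Y B - y0| ≤ δ} := filter_subset_filter _ hHC0
    have e3 : (#{B ∈ H | |X B - x0| ≤ δ ∧ |Y B - y0| ≤ δ} : ℝ)
        ≤ #{B ∈ C0 | |X B - x0| ≤ δ ∧ |Y B - y0| ≤ δ} := by
      exact_mod_cast card_le_card e2
    refine e3.trans (e1.trans (le_of_eq ?_))
    rw [hM₀]
    ring
  · have e1 : ∑ a ∈ A, (#(G a) : ℝ) = ∑ a ∈ A', (#(G a) : ℝ) + ∑ a ∈ A \ A', (#(G a) : ℝ) := by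
      have : A' ⊆ A := filter_subset _ _
      rw [add_comm, sum_sdiff this]
    have e2 : ∑ a ∈ A \ A', (#(G a) : ℝ) ≤ #A * τ := by
      calc ∑ a ∈ A \ A', (#(G a) : ℝ) ≤ ∑ _a ∈ A \ A', τ := by
            refine sum_le_sum fun a ha => ?_
            rw [mem_sdiff] at ha
            by_contra hcon
            push Not at hcon
            exact ha.2 (mem_filter.2 ⟨ha.1, hcon.le⟩)
        _ = #(A \ A') * τ := by rw [sum_const, nsmul_eq_mul]
        _ ≤ #A * τ := by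
            refine mul_le_mul_of_nonneg_right ?_ (by positivity)
            exact_mod_cast card_le_card sdiff_subset
    have e3 : ∑ a ∈ A', (#(G a) : ℝ) ≤ #A' * (K ^ 3 * L ^ 2 * μ) := by
      calc ∑ a ∈ A', (#(G a) : ℝ) ≤ ∑ _a ∈ A', K ^ 3 * L ^ 2 * μ :=
            sum_le_sum fun a ha => hGc a (mem_filter.1 ha).1
        _ = _ := by rw [sum_const, nsmul_eq_mul]
    have e4 : L ^ 2 * μ * #A / (7680 * K ^ 9) = #A * τ + #A * τ := by
      rw [hτ]
      field_simp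
      ring
    have e5 : #A * τ ≤ #A' * (K ^ 3 * L ^ 2 * μ) := by linarith
    have e6 : (#A : ℝ) * τ = #A / (15360 * K ^ 9) * (L ^ 2 * μ) := by
      rw [hτ]
      ring
    have e7 : (#A : ℝ) / (15360 * K ^ 9) ≤ #A' * K ^ 3 := by
      rw [e6] at e5
      have e8 : (#A' : ℝ) * (K ^ 3 * L ^ 2 * μ) = #A' * K ^ 3 * (L ^ 2 * μ) := by ring
      rw [e8] at e5
      exact le_of_mul_le_mul_right e5 (by positivity)
    rw [div_le_iff₀ (by positivity)] at e7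
    calc (#A : ℝ) ≤ #A' * K ^ 3 * (15360 * K ^ 9) := e7
      _ = 15360 * K ^ 12 * #A' := by ring
  · intro a ha
    refine ⟨filter_subset _ _, fun B hB => (mem_filter.1 hB).2.1, ?_, fun B hB => ?_⟩
    · have e1 : τ ≤ #(G a) := (mem_filter.1 ha).2
      rw [hτ, div_le_iff₀ (by positivity)] at e1
      calc L ^ 2 * μ ≤ #(G a) * (15360 * K ^ 9) := e1
        _ = 15360 * K ^ 9 * #(G a) := by ring
    · have e1 := mem_filter.1 hB
      exact ⟨hHu B e1.1, e1.2.2.1.le, e1.2.2.2.le⟩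

end Vale.Agent.P065.H240
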