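import Mathlib

/-!
# P065, upper bound, ONE RESOLUTION (helper240), part A: counting lemmas
-/

set_option autoImplicit false

namespace Vale.Agent.P065.H240

open Finset

/-! ### counting separated points -/

theorem sep_count {ι : Type*} (S : Finset ι) (p : ι → ℝ) {ρ τ q : ℝ} (hρ : 0 < ρ) (hτ : 0 ≤ τ)
    (hsep : ∀ i ∈ S, ∀ j ∈ S, i ≠ j → 2 * ρ ≤ |p i - p j|) (h : ∀ i ∈ S, |p i - q| ≤ τ) :
    (#S : ℝ) ≤ τ / ρ + 1 := by
  classical
  have hinj : Set.InjOn (fun i => ⌊(p i - q + τ) / (2 * ρ)⌋) (S : Set ι) := by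
    intro i hi j hj hij
    by_contra hne
    have h1 := hsep i hi j hj hne
    have h2 : |(p i - q + τ) / (2 * ρ) - (p j - q + τ) / (2 * ρ)| < 1 :=
      Int.abs_sub_lt_one_of_floor_eq_floor hij
    have h3 : (p i - q + τ) / (2 * ρ) - (p j - q + τ) / (2 * ρ) = (p i - p j) / (2 * ρ) := by
      field_simp
      ring
    rw [h3, abs_div, abs_of_pos (by positivity : 0 < 2 * ρ), div_lt_one (by positivity)] at h2
    linarith
  have hmap : ∀ i ∈ S, ⌊(p i - q + τ) / (2 * ρ)⌋ ∈ Icc (0 : ℤ) ⌊τ / ρ⌋ := by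
    intro i hi
    have h1 := abs_le.1 (h i hi)
    rw [mem_Icc]
    constructor
    · apply Int.floor_nonneg.2
      apply div_nonneg
      · linarith [h1.1]
      · positivity
    · apply Int.floor_le_floor
      rw [div_le_div_iff₀ (by positivity) hρ]
      nlinarith [h1.2]
  have hc := card_le_card_of_injOn _ hmap hinj
  have h0 : (0 : ℤ) ≤ ⌊τ / ρ⌋ := Int.floor_nonneg.2 (by positivity)
  rw [Int.card_Icc] at hc
  have h1 : ((⌊τ / ρ⌋ + 1 - 0).toNat : ℤ) = ⌊τ / ρ⌋ + 1 := by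
    rw [Int.toNat_of_nonneg (by omega)]; ring
  have h2 : (#S : ℤ) ≤ ⌊τ / ρ⌋ + 1 := by
    rw [← h1]; exact_mod_cast hc
  have h3 : (#S : ℝ) ≤ (⌊τ / ρ⌋ : ℝ) + 1 := by exact_mod_cast h2
  linarith [Int.floor_le (τ / ρ)]

/-- disjoint intervals of half-width at least `ρ` which meet an interval of half-width `τ` -/
theorem meet_count {ι : Type*} (S : Finset ι) (p r : ι → ℝ) {ρ τ q : ℝ} (hρ : 0 < ρ)
    (hτ : 0 ≤ τ) (hr : ∀ i ∈ S, ρ ≤ r i)
    (hsep : ∀ i ∈ S, ∀ j ∈ S, i ≠ j → r i + r j ≤ |p i - p j|)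
    (h : ∀ i ∈ S, |p i - q| ≤ r i + τ) :
    (#S : ℝ) ≤ τ / ρ + 2 := by
  have key : ∀ i ∈ S, ∃ p' : ℝ, |p' - p i| ≤ r i - ρ ∧ |p' - q| ≤ τ + ρ := by
    intro i hi
    have h1 := abs_le.1 (h i hi)
    have h2 := hr i hi
    by_cases ha : q < p i - (r i - ρ)
    · refine ⟨p i - (r i - ρ), ?_, ?_⟩
      · rw [abs_le]; constructor <;> linarith
      · rw [abs_le]; constructor <;> linarith [h1.2]
    · by_cases hb : p i + (r i - ρ) < q
      · refine ⟨p i + (r i - ρ), ?_, ?_⟩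
        · rw [abs_le]; constructor <;> linarith
        · rw [abs_le]; constructor <;> linarith [h1.1]
      · refine ⟨q, ?_, ?_⟩
        · rw [abs_le]; constructor <;> linarith
        · rw [sub_self, abs_zero]; linarith
  choose! p' hp' using key
  have h1 := sep_count S p' (ρ := ρ) (τ := τ + ρ) (q := q) hρ (by linarith) ?_
    (fun i hi => (hp' i hi).2)
  · have : (τ + ρ) / ρ = τ / ρ + 1 := by field_simp
    rw [this] at h1
    linarith
  · intro i hi j hj hij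
    have h2 := hsep i hi j hj hij
    have h3 := (hp' i hi).1
    have h4 := (hp' j hj).1
    have h5 : |p i - p j| ≤ |p' i - p i| + |p' i - p' j| + |p' j - p j| := by
      have e1 : p i - p j = -(p' i - p i) + (p' i - p' j) + (p' j - p j) := by ring
      rw [e1]
      refine (abs_add_le _ _).trans ?_
      refine add_le_add_left ((abs_add_le _ _).trans ?_) _
      rw [abs_neg]
    linarith

/-- points in cells of length `s` -/
theorem cell_count {κ : Type*} (S : Finset κ) (y : κ → ℝ) {s q τ B : ℝ} (hτ : 0 ≤ τ)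
    (hB : 0 ≤ B) (h : ∀ j ∈ S, |y j / s - q| ≤ τ)
    (hc : ∀ j ∈ S, (#{j' ∈ S | ⌊y j' / s⌋ = ⌊y j / s⌋} : ℝ) ≤ B) :
    (#S : ℝ) ≤ (2 * τ + 2) * B := by
  classical
  have h1 : (#S : ℝ) ≤ ∑ c ∈ S.image (fun j => ⌊y j / s⌋), B := by
    rw [card_eq_sum_card_image (fun j => ⌊y j / s⌋) S]
    push_cast
    refine sum_le_sum fun c hcm => ?_
    obtain ⟨j, hj, rfl⟩ := mem_image.1 hcm
    exact hc j hj
  have h2 : S.image (fun j => ⌊y j / s⌋) ⊆ Icc ⌊q - τ⌋ ⌊q + τ⌋ := by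
    intro c hcm
    obtain ⟨j, hj, rfl⟩ := mem_image.1 hcm
    have h3 := abs_le.1 (h j hj)
    rw [mem_Icc]
    exact ⟨Int.floor_le_floor (by linarith [h3.1]), Int.floor_le_floor (by linarith [h3.2])⟩
  have h3 := card_le_card h2
  rw [Int.card_Icc] at h3
  have h4 : ((⌊q + τ⌋ + 1 - ⌊q - τ⌋).toNat : ℝ) ≤ 2 * τ + 2 := by
    have h5 : ⌊q - τ⌋ ≤ ⌊q + τ⌋ := Int.floor_le_floor (by linarith)
    have h6 : ((⌊q + τ⌋ + 1 - ⌊q - τ⌋).toNat : ℤ) = ⌊q + τ⌋ + 1 - ⌊q - τ⌋ :=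
      Int.toNat_of_nonneg (by omega)
    have h7 : ((⌊q + τ⌋ + 1 - ⌊q - τ⌋).toNat : ℝ) = (⌊q + τ⌋ : ℝ) + 1 - ⌊q - τ⌋ := by
      exact_mod_cast h6
    rw [h7]
    linarith [Int.floor_le (q + τ), Int.lt_floor_add_one (q - τ)]
  rw [sum_const, nsmul_eq_mul] at h1
  calc (#S : ℝ) ≤ #(S.image (fun j => ⌊y j / s⌋)) * B := h1
    _ ≤ (2 * τ + 2) * B := by
        refine mul_le_mul_of_nonneg_right ?_ hB
        calc (#(S.image (fun j => ⌊y j / s⌋)) : ℝ) ≤ ((⌊q + τ⌋ + 1 - ⌊q - τ⌋).toNat : ℝ) := by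
              exact_mod_cast h3
          _ ≤ _ := h4

/-! ### products -/

theorem card_prod_left {κ β : Type*} (J : Finset κ) (KK : Finset β) (P : κ → β → Prop)
    [∀ j, DecidablePred (P j)] [DecidablePred fun q : κ × β => P q.1 q.2] {b : ℝ}
    (h : ∀ j ∈ J, (#{x ∈ KK | P j x} : ℝ) ≤ b) :
    (#{q ∈ J ×ˢ KK | P q.1 q.2} : ℝ) ≤ #J * b := by
  have h1 : #{q ∈ J ×ˢ KK | P q.1 q.2} = ∑ j ∈ J, #{x ∈ KK | P j x} := by
    simp only [card_filter]
    rw [sum_product]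
    refine sum_congr rfl fun a _ => sum_congr rfl fun c _ => ?_
    by_cases h : P a c <;> simp [h]
  rw [h1]
  push_cast
  calc ∑ j ∈ J, (#{x ∈ KK | P j x} : ℝ) ≤ ∑ j ∈ J, b := sum_le_sum h
    _ = #J * b := by rw [sum_const, nsmul_eq_mul]

theorem card_prod_right {κ β : Type*} (J : Finset κ) (KK : Finset β) (P : κ → β → Prop)
    [∀ x, DecidablePred fun j => P j x] [DecidablePred fun q : κ × β => P q.1 q.2] {b : ℝ}
    (h : ∀ x ∈ KK, (#{j ∈ J | P j x} : ℝ) ≤ b) :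
    (#{q ∈ J ×ˢ KK | P q.1 q.2} : ℝ) ≤ #KK * b := by
  have h1 : #{q ∈ J ×ˢ KK | P q.1 q.2} = ∑ x ∈ KK, #{j ∈ J | P j x} := by
    simp only [card_filter]
    rw [sum_product_right]
    refine sum_congr rfl fun a _ => sum_congr rfl fun c _ => ?_
    by_cases h : P c a <;> simp [h]
  rw [h1]
  push_cast
  calc ∑ x ∈ KK, (#{j ∈ J | P j x} : ℝ) ≤ ∑ x ∈ KK, b := sum_le_sum h
    _ = #KK * b := by rw [sum_const, nsmul_eq_mul]

theorem card_le_mul_image {α γ : Type*} [DecidableEq γ] (S : Finset α) (f : α → γ) {b : ℝ}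
    (h : ∀ c ∈ S.image f, (#{a ∈ S | f a = c} : ℝ) ≤ b) : (#S : ℝ) ≤ b * #(S.image f) := by
  rw [card_eq_sum_card_image f S]
  push_cast
  calc ∑ c ∈ S.image f, (#{a ∈ S | f a = c} : ℝ) ≤ ∑ c ∈ S.image f, b := sum_le_sum h
    _ = b * #(S.image f) := by rw [sum_const, nsmul_eq_mul, mul_comm]

end Vale.Agent.P065.H240
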