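import Vale.Agent.P065.H240.Match

/-!
# P065, upper bound, ONE RESOLUTION (helper240), part D: the shortest heavy `y`-interval
(helper410, note 18699)
-/

set_option autoImplicit false

namespace Vale.Agent.P065.H240

open Finset

variable {γ ι κ β : Type} {K L μ : ℝ} {C : Finset γ} {X Y Z : γ → ℝ}
    {I : Finset ι} {p u : ι → ℝ} {i : γ → ι} {J : Finset κ} {q v : κ → ℝ} {j : γ → κ}
    {KK : Finset β} {r w : β → ℝ} {k : γ → β}

open Classical in
/-- the shortest interval with at least `M` points -/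
theorem exists_shortest {γ : Type} (C : Finset γ) (Y : γ → ℝ) {M : ℝ} (hM0 : 0 < M)
    (hM : M ≤ #C) : ∃ g y0 : ℝ, 0 ≤ g ∧ M ≤ #{B ∈ C | |Y B - y0| ≤ g} ∧
      ∀ g' y1 : ℝ, g' < g → (#{B ∈ C | |Y B - y1| ≤ g'} : ℝ) < M := by
  set P : Finset (γ × γ) := {e ∈ C ×ˢ C | Y e.1 ≤ Y e.2 ∧
    M ≤ #{B ∈ C | Y e.1 ≤ Y B ∧ Y B ≤ Y e.2}} with hP
  -- every set with at least `M` elements gives a pair
  have key : ∀ D ⊆ C, M ≤ #D → ∃ e ∈ P, e.1 ∈ D ∧ e.2 ∈ D := by
    intro D hD hDM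
    have hne : D.Nonempty := by
      rw [nonempty_iff_ne_empty]
      rintro rfl
      rw [card_empty, Nat.cast_zero] at hDM
      linarith
    obtain ⟨a, ha, hamin⟩ := exists_min_image D Y hne
    obtain ⟨b, hb, hbmax⟩ := exists_max_image D Y hne
    refine ⟨(a, b), ?_, ha, hb⟩
    refine mem_filter.2 ⟨mem_product.2 ⟨hD ha, hD hb⟩, hamin b hb, hDM.trans ?_⟩
    have : D ⊆ {B ∈ C | Y a ≤ Y B ∧ Y B ≤ Y b} := fun B hB =>
      mem_filter.2 ⟨hD hB, hamin B hB, hbmax B hB⟩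
    exact_mod_cast card_le_card this
  obtain ⟨e₀, he₀, -, -⟩ := key C (subset_refl _) hM
  obtain ⟨e, he, hmin⟩ := exists_min_image P (fun e => (Y e.2 - Y e.1) / 2) ⟨e₀, he₀⟩
  have he' := mem_filter.1 he
  refine ⟨(Y e.2 - Y e.1) / 2, (Y e.1 + Y e.2) / 2, ?_, ?_, ?_⟩
  · linarith [he'.2.1]
  · refine he'.2.2.trans ?_
    have : ({B ∈ C | Y e.1 ≤ Y B ∧ Y B ≤ Y e.2} : Finset γ)
        ⊆ {B ∈ C | |Y B - (Y e.1 + Y e.2) / 2| ≤ (Y e.2 - Y e.1) / 2} := by
      intro B hB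
      rw [mem_filter] at hB ⊢
      refine ⟨hB.1, ?_⟩
      rw [abs_le]
      constructor <;> linarith [hB.2.1, hB.2.2]
    exact_mod_cast card_le_card this
  · intro g' y1 hg'
    by_contra hcon
    push Not at hcon
    obtain ⟨f, hf, hf1, hf2⟩ := key _ (filter_subset _ _) hcon
    have h1 := abs_le.1 (mem_filter.1 hf1).2
    have h2 := abs_le.1 (mem_filter.1 hf2).2
    have h3 : (Y e.2 - Y e.1) / 2 ≤ (Y f.2 - Y f.1) / 2 := hmin f hf
    linarith [h1.1, h2.2]

open Classical in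
/-- total number of cells -/
theorem card_cells {γ ι κ : Type} {K L μ : ℝ} (hK : 0 ≤ K) (hL : 0 ≤ L) (hμ : 0 ≤ μ)
    {C : Finset γ}
    {I : Finset ι} {J : Finset κ} {i : γ → ι} {j : γ → κ}
    (cI : (#I : ℝ) ≤ K * L) (cJ : (#J : ℝ) ≤ K * L) (memI : ∀ B ∈ C, i B ∈ I)
    (memJ : ∀ B ∈ C, j B ∈ J)
    (pij : ∀ a b, (#{B ∈ C | i B = a ∧ j B = b} : ℝ) ≤ K * μ) :
    (#C : ℝ) ≤ K ^ 3 * L ^ 2 * μ := by
  have h1 : (#C : ℝ) ≤ K * μ * #(C.image (fun B => (i B, j B))) := by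
    refine card_le_mul_image C _ (fun c _ => ?_)
    refine le_trans ?_ (pij c.1 c.2)
    have : ({B ∈ C | (i B, j B) = c} : Finset γ) ⊆ {B ∈ C | i B = c.1 ∧ j B = c.2} := by
      intro B hB
      rw [mem_filter] at hB ⊢
      exact ⟨hB.1, by rw [← hB.2], by rw [← hB.2]⟩
    exact_mod_cast card_le_card this
  have h2 : (#(C.image (fun B => (i B, j B))) : ℝ) ≤ (K * L) * (K * L) := by
    have h3 : C.image (fun B => (i B, j B)) ⊆ I ×ˢ J := by
      intro c hc
      obtain ⟨B, hB, rfl⟩ := mem_image.1 hc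
      exact mem_product.2 ⟨memI B hB, memJ B hB⟩
    have h4 : (#(C.image (fun B => (i B, j B))) : ℝ) ≤ #I * #J := by
      have := card_le_card h3
      rw [card_product] at this
      exact_mod_cast this
    refine h4.trans (mul_le_mul cI cJ (Nat.cast_nonneg _) (by positivity))
  calc (#C : ℝ) ≤ K * μ * ((K * L) * (K * L)) :=
        h1.trans (mul_le_mul_of_nonneg_left h2 (by positivity))
    _ = K ^ 3 * L ^ 2 * μ := by ring

open Classical in
/-- a long interval is covered by `n + 1` short ones -/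
theorem labels_cover {γ κ : Type} {C : Finset γ} {Y : γ → ℝ} {j : γ → κ} {g δ b : ℝ}
    (hg : 0 < g) (n : ℕ) (hn : δ ≤ n * g) (S : Finset γ) (y0 : ℝ)
    (hS : ∀ B ∈ S, B ∈ C ∧ |Y B - y0| ≤ δ)
    (hb : ∀ y1 : ℝ, (#(({B ∈ C | |Y B - y1| ≤ g} : Finset γ).image j) : ℝ) ≤ b) :
    (#(S.image j) : ℝ) ≤ (n + 1) * b := by
  have hsub : S.image j ⊆ (range (n + 1)).biUnion (fun t =>
      ({B ∈ C | |Y B - (y0 - n * g + (2 * t + 1) * g)| ≤ g} : Finset γ).image j) := by
    intro a ha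
    obtain ⟨B, hB, rfl⟩ := mem_image.1 ha
    obtain ⟨hBC, hBy⟩ := hS B hB
    have h1 := abs_le.1 hBy
    set z : ℝ := (Y B - y0 + n * g) / (2 * g) with hz
    have hz0 : 0 ≤ z := div_nonneg (by linarith [h1.1]) (by positivity)
    have hzn : z ≤ n := by
      rw [hz, div_le_iff₀ (by positivity)]
      linarith [h1.2]
    have hzY : Y B = y0 - n * g + 2 * z * g := by
      rw [hz]
      field_simp
      ring
    have hle : ⌊z⌋₊ ≤ n := Nat.floor_le_of_le hzn
    refine mem_biUnion.2 ⟨⌊z⌋₊, mem_range.2 (by omega),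
      mem_image.2 ⟨B, mem_filter.2 ⟨hBC, ?_⟩, rfl⟩⟩
    have e1 := Nat.floor_le hz0
    have e2 := Nat.lt_floor_add_one z
    have e3 : Y B - (y0 - n * g + (2 * (⌊z⌋₊ : ℝ) + 1) * g)
        = (2 * (z - ⌊z⌋₊) - 1) * g := by
      rw [hzY]
      ring
    rw [e3, abs_mul, abs_of_pos hg]
    have e4 : |2 * (z - (⌊z⌋₊ : ℝ)) - 1| ≤ 1 := by
      rw [abs_le]
      constructor <;> linarith
    calc |2 * (z - (⌊z⌋₊ : ℝ)) - 1| * g ≤ 1 * g := mul_le_mul_of_nonneg_right e4 hg.le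
      _ = g := one_mul g
  have h1 : (#(S.image j) : ℝ) ≤ ∑ t ∈ range (n + 1),
      (#(({B ∈ C | |Y B - (y0 - n * g + (2 * t + 1) * g)| ≤ g} : Finset γ).image j) : ℝ) := by
    exact_mod_cast (card_le_card hsub).trans card_biUnion_le
  refine h1.trans ?_
  calc ∑ t ∈ range (n + 1),
      (#(({B ∈ C | |Y B - (y0 - n * g + (2 * t + 1) * g)| ≤ g} : Finset γ).image j) : ℝ)
      ≤ ∑ _t ∈ range (n + 1), b := sum_le_sum fun t _ => hb _
    _ = (n + 1) * b := by
        rw [sum_const, nsmul_eq_mul, card_range]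
        push_cast
        ring

/-- the length of an interval which meets many long disjoint intervals -/
theorem length_ge (h : Tri K L μ C X Y Z I p u i J q v j KK r w k) {ρ g y0 M : ℝ} (hρ : 0 < ρ)
    (hv : ∀ a ∈ J, ρ ≤ v a) (hg : 0 ≤ g) [DecidablePred fun B => |Y B - y0| ≤ g]
    (hM : M ≤ #{B ∈ C | |Y B - y0| ≤ g}) : (M / (K ^ 2 * L * μ) - 2) * ρ ≤ g := by
  classical
  have hK : 0 < K := lt_of_lt_of_le one_pos h.oneK
  have hL := h.posL
  have hμ := h.posM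
  set D : Finset γ := {B ∈ C | |Y B - y0| ≤ g} with hD
  have h1 : (#D : ℝ) ≤ (K ^ 2 * L * μ) * #(D.image j) := by
    refine card_le_mul_image D j (fun a _ => ?_)
    set F : Finset γ := {B ∈ D | j B = a} with hF
    have b1 : (#F : ℝ) ≤ K * μ * #(F.image i) := by
      refine card_le_mul_image F i (fun c _ => ?_)
      refine le_trans ?_ (h.pij c a)
      have : ({B ∈ F | i B = c} : Finset γ) ⊆ {B ∈ C | i B = c ∧ j B = a} := by
        intro B hB
        rw [mem_filter, hF, mem_filter, hD, mem_filter] at hB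
        exact mem_filter.2 ⟨hB.1.1.1, hB.2, hB.1.2⟩
      exact_mod_cast card_le_card this
    have b2 : (#(F.image i) : ℝ) ≤ K * L := by
      refine le_trans ?_ h.cI
      have : F.image i ⊆ I := by
        intro c hc
        obtain ⟨B, hB, rfl⟩ := mem_image.1 hc
        exact h.memI B (mem_filter.1 (mem_filter.1 hB).1).1
      exact_mod_cast card_le_card this
    calc (#F : ℝ) ≤ K * μ * (K * L) := b1.trans (mul_le_mul_of_nonneg_left b2 (by positivity))
      _ = K ^ 2 * L * μ := by ring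
  have hJm : ∀ a ∈ D.image j, a ∈ J := by
    intro a ha
    obtain ⟨B, hB, rfl⟩ := mem_image.1 ha
    exact h.memJ B (mem_filter.1 hB).1
  have h2 := meet_count (D.image j) q v (ρ := ρ) (τ := g) (q := y0) hρ hg
    (fun a ha => hv a (hJm a ha)) (fun a ha b hb hab => h.sepV a (hJm a ha) b (hJm b hb) hab) ?_
  · have h3 : M / (K ^ 2 * L * μ) ≤ #(D.image j) := by
      rw [div_le_iff₀ (by positivity)]
      linarith
    have h4 : M / (K ^ 2 * L * μ) - 2 ≤ g / ρ := by linarith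
    rwa [le_div_iff₀ hρ] at h4
  · intro a ha
    obtain ⟨B, hB, rfl⟩ := mem_image.1 ha
    have h3 := mem_filter.1 hB
    have h4 := h.ny B h3.1
    have h5 : q (j B) - y0 = -(Y B - q (j B)) + (Y B - y0) := by ring
    rw [h5]
    refine (abs_add_le _ _).trans ?_
    rw [abs_neg]
    linarith [h3.2]

end Vale.Agent.P065.H240
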