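import Vale.Agent.P065.H240.Res

/-!
# P065, upper bound, ONE RESOLUTION (helper240), part E: the resolution for one class
(helper410, note 18699)
-/

set_option autoImplicit false

namespace Vale.Agent.P065.H240

open Finset

variable {γ ι κ β : Type} {K L μ : ℝ} {C : Finset γ} {X Y Z : γ → ℝ}
    {I : Finset ι} {p u : ι → ℝ} {i : γ → ι} {J : Finset κ} {q v : κ → ℝ} {j : γ → κ}
    {KK : Finset β} {r w : β → ℝ} {k : γ → β}

open Classical in
/-- few cells of a class in wide strips over the `x`-interval of a grid cell -/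
theorem orient_x (h : Tri K L μ C X Y Z I p u i J q v j KK r w k) {g x0 : ℝ} (hg : 0 < g) :
    (#{B ∈ C | |X B - x0| ≤ g ∧ (g ≤ v (j B) ∨ g ≤ w (k B))} : ℝ) ≤ 12 * K ^ 3 * L * μ :=
  orient h.swap hg

/-- numerical estimate for the multiplicity -/
theorem num_mult {K M₀ μ a b : ℝ} (hK1 : 1 ≤ K) (hM1 : 1 ≤ M₀) (hμ : 0 < μ) (hb0 : 0 ≤ b)
    (ha : a ≤ (72 * K ^ 2 + 2) * (576 * K ^ 6 * M₀ + 4))
    (hb : b ≤ (12 * K + 2) * (12 * K ^ 2 * M₀ + 4)) :
    K * μ * (a * b) ≤ 10 ^ 7 * K ^ 12 * M₀ ^ 2 * μ := by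
  have hK : 0 < K := by linarith
  have hMpos : 0 < M₀ := by linarith
  have c0 : (1 : ℝ) ≤ K ^ 2 := one_le_pow₀ hK1
  have c6 : (1 : ℝ) ≤ K ^ 6 := one_le_pow₀ hK1
  have b1 : (72 * K ^ 2 + 2) * (576 * K ^ 6 * M₀ + 4)
      ≤ (74 * K ^ 2) * (580 * K ^ 6 * M₀) := by
    have c1 : 72 * K ^ 2 + 2 ≤ 74 * K ^ 2 := by linarith
    have c2 : 576 * K ^ 6 * M₀ + 4 ≤ 580 * K ^ 6 * M₀ := by
      have : 1 ≤ K ^ 6 * M₀ := one_le_mul_of_one_le_of_one_le c6 hM1
      linarith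
    exact mul_le_mul c1 c2 (by positivity) (by positivity)
  have b2 : (12 * K + 2) * (12 * K ^ 2 * M₀ + 4) ≤ (14 * K) * (16 * K ^ 2 * M₀) := by
    have c1 : 12 * K + 2 ≤ 14 * K := by linarith
    have c2 : 12 * K ^ 2 * M₀ + 4 ≤ 16 * K ^ 2 * M₀ := by
      have : 1 ≤ K ^ 2 * M₀ := one_le_mul_of_one_le_of_one_le c0 hM1
      linarith
    exact mul_le_mul c1 c2 (by positivity) (by positivity)
  calc K * μ * (a * b)
      ≤ K * μ * (((74 * K ^ 2) * (580 * K ^ 6 * M₀)) * ((14 * K) * (16 * K ^ 2 * M₀))) := by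
        refine mul_le_mul_of_nonneg_left ?_ (by positivity)
        exact mul_le_mul (ha.trans b1) (hb.trans b2) hb0 (by positivity)
    _ = 9614080 * (K ^ 12 * M₀ ^ 2 * μ) := by ring
    _ ≤ 10 ^ 7 * (K ^ 12 * M₀ ^ 2 * μ) := by
        refine mul_le_mul_of_nonneg_right (by norm_num) (by positivity)
    _ = 10 ^ 7 * K ^ 12 * M₀ ^ 2 * μ := by ring

open Classical in
/-- cells over short `x`-intervals -/
theorem short_x (h : Tri K L μ C X Y Z I p u i J q v j KK r w k) {d M₀ g : ℝ} (hd : 0 < d)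
    (hdL : d ≤ L) (hI : Rich (d * μ) C i) (hJ : Rich (d * μ) C j)
    (hM₀ : 10 ^ 3 * K ^ 6 ≤ M₀)
    (hgmin : ∀ g' y1 : ℝ, g' < g → (#{B ∈ C | |Y B - y1| ≤ g'} : ℝ) < M₀ * (L * μ))
    {g₁ : ℝ} (hg₁0 : 0 < g₁) (hg₁g : 6 * K * g₁ < g) (x2 : ℝ) :
    (#{B ∈ C | |X B - x2| ≤ g₁} : ℝ) ≤ 4 * K ^ 2 * L * (M₀ * (L * μ)) / d := by
  have hK : 0 < K := lt_of_lt_of_le one_pos h.oneK
  have hK1 := h.oneK
  have hL := h.posL
  have hK6 : K ^ 3 ≤ K ^ 6 := pow_le_pow_right₀ hK1 (by norm_num)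
  have hK3 : 1 ≤ K ^ 3 := one_le_pow₀ hK1
  have hMpos : 0 < M₀ := by nlinarith
  have hKK3 : K ≤ K ^ 3 := by
    calc K = K ^ 1 := (pow_one K).symm
      _ ≤ K ^ 3 := pow_le_pow_right₀ hK1 (by norm_num)
  have hμ := h.posM
  set N₁ : ℝ := 4 * K ^ 2 * L * (M₀ * (L * μ)) / d with hN₁
  have hN₁big : 48 * K ^ 3 * L * μ ≤ N₁ := by
    rw [hN₁, le_div_iff₀ hd]
    calc 48 * K ^ 3 * L * μ * d ≤ 48 * K ^ 3 * L * μ * L :=
          mul_le_mul_of_nonneg_left hdL (by positivity)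
      _ = (K ^ 2 * L * μ) * (48 * K * L) := by ring
      _ ≤ (K ^ 2 * L * μ) * (4 * (M₀ * L)) := by
          refine mul_le_mul_of_nonneg_left ?_ (by positivity)
          have : 12 * K ≤ M₀ := by linarith
          calc 48 * K * L = 4 * ((12 * K) * L) := by ring
            _ ≤ 4 * (M₀ * L) := by
                have := mul_le_mul_of_nonneg_right this hL.le
                linarith
      _ = 4 * K ^ 2 * L * (M₀ * (L * μ)) := by ring
  by_contra hcon
  push Not at hcon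
  obtain ⟨H', -, hd', hB'⟩ := match_y h.swap hd hdL hJ hI hg₁0 (hN₁big.trans hcon.le)
  have hne : H'.Nonempty := by
    rw [nonempty_iff_ne_empty]
    rintro rfl
    rw [card_empty, Nat.cast_zero, mul_zero] at hd'
    have : 0 < d * d * μ := by positivity
    linarith
  obtain ⟨B, hB⟩ := hne
  obtain ⟨-, y2, -, hy2⟩ := hB' B hB
  have e1 := hgmin _ y2 hg₁g
  have e2 : d * N₁ < 4 * K ^ 2 * L * (M₀ * (L * μ)) := by
    calc d * N₁ < d * #{B ∈ C | |X B - x2| ≤ g₁} := mul_lt_mul_of_pos_left hcon hd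
      _ ≤ 4 * K ^ 2 * L * #{B' ∈ C | |Y B' - y2| ≤ 6 * K * g₁} := hy2
      _ ≤ 4 * K ^ 2 * L * (M₀ * (L * μ)) := mul_le_mul_of_nonneg_left e1.le (by positivity)
  have e3 : d * N₁ = 4 * K ^ 2 * L * (M₀ * (L * μ)) := by
    rw [hN₁]
    field_simp
  linarith

open Classical in
/-- a square of size `δ = 6 K g` contains few cells -/
theorem mult_bound (h : Tri K L μ C X Y Z I p u i J q v j KK r w k) {d M₀ g : ℝ} (hd : 0 < d)
    (hdL : d ≤ L) (hLd : L ≤ 12 * K ^ 2 * d) (hI : Rich (d * μ) C i) (hJ : Rich (d * μ) C j)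
    (hM₀ : 10 ^ 3 * K ^ 6 ≤ M₀) (hg : 0 < g)
    (hgmin : ∀ g' y1 : ℝ, g' < g → (#{B ∈ C | |Y B - y1| ≤ g'} : ℝ) < M₀ * (L * μ)) (x0 y1 : ℝ) :
    (#{B ∈ C | |X B - x0| ≤ 6 * K * g ∧ |Y B - y1| ≤ 6 * K * g} : ℝ)
      ≤ 10 ^ 7 * K ^ 12 * M₀ ^ 2 * μ := by
  have hK : 0 < K := lt_of_lt_of_le one_pos h.oneK
  have hK1 := h.oneK
  have hL := h.posL
  have hμ := h.posM
  have hdμ : 0 < d * μ := by positivity
  have hK6 : (1 : ℝ) ≤ K ^ 6 := one_le_pow₀ hK1
  have hM1 : 1 ≤ M₀ := by linarith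
  have hMpos : 0 < M₀ := by linarith
  set δ : ℝ := 6 * K * g with hδ
  set S : Finset γ := {B ∈ C | |X B - x0| ≤ δ ∧ |Y B - y1| ≤ δ} with hS
  have hLd1 : L / d ≤ 12 * K ^ 2 := by
    rw [div_le_iff₀ hd]
    exact hLd
  have hMd : M₀ * (L * μ) / (d * μ) ≤ 12 * K ^ 2 * M₀ := by
    have e0 : M₀ * (L * μ) / (d * μ) = M₀ * (L / d) := by
      field_simp
    rw [e0]
    have := mul_le_mul_of_nonneg_left hLd1 hMpos.le
    linarith
  -- labels of the second pencil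
  have hjl : (#(S.image j) : ℝ) ≤ (12 * K + 2) * (12 * K ^ 2 * M₀ + 4) := by
    have hb : ∀ y2 : ℝ, (#(({B ∈ C | |Y B - y2| ≤ g / 2} : Finset γ).image j) : ℝ)
        ≤ 12 * K ^ 2 * M₀ + 4 := by
      intro y2
      have e1 := labels_over (M := M₀ * (L * μ)) (g := g / 2) (y0 := y2) h.sepV h.memJ h.ny hdμ hJ
        (hgmin (g / 2) y2 (by linarith)).le
      linarith
    have hn : δ ≤ (⌈12 * K⌉₊ : ℕ) * (g / 2) := by
      have := Nat.le_ceil (12 * K)
      calc δ = (12 * K) * (g / 2) := by rw [hδ]; ring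
        _ ≤ _ := mul_le_mul_of_nonneg_right this (by linarith)
    have e2 := labels_cover (C := C) (j := j) (S := S) (by linarith : 0 < g / 2)
      ⌈12 * K⌉₊ hn y1 (fun B hB => ⟨(mem_filter.1 hB).1, (mem_filter.1 hB).2.2⟩) hb
    refine e2.trans (mul_le_mul_of_nonneg_right ?_ (by positivity))
    have := Nat.ceil_lt_add_one (by positivity : (0 : ℝ) ≤ 12 * K)
    linarith
  -- labels of the first pencil
  set g₁ : ℝ := g / (12 * K) with hg₁
  have hg₁0 : 0 < g₁ := by positivity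
  have hg₁g : 6 * K * g₁ < g := by
    have : 6 * K * g₁ = g / 2 := by
      rw [hg₁]
      field_simp
      ring
    rw [this]
    linarith
  have hN₁d : 4 * K ^ 2 * L * (M₀ * (L * μ)) / d / (d * μ) ≤ 576 * K ^ 6 * M₀ := by
    have e1 : 4 * K ^ 2 * L * (M₀ * (L * μ)) / d / (d * μ)
        = 4 * K ^ 2 * M₀ * ((L / d) * (L / d)) := by
      field_simp
    rw [e1]
    have e2 : (L / d) * (L / d) ≤ (12 * K ^ 2) * (12 * K ^ 2) :=
      mul_le_mul hLd1 hLd1 (by positivity) (by positivity)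
    calc 4 * K ^ 2 * M₀ * ((L / d) * (L / d))
        ≤ 4 * K ^ 2 * M₀ * ((12 * K ^ 2) * (12 * K ^ 2)) :=
          mul_le_mul_of_nonneg_left e2 (by positivity)
      _ = 576 * K ^ 6 * M₀ := by ring
  have hil : (#(S.image i) : ℝ) ≤ (72 * K ^ 2 + 2) * (576 * K ^ 6 * M₀ + 4) := by
    have hb : ∀ x2 : ℝ, (#(({B ∈ C | |X B - x2| ≤ g₁} : Finset γ).image i) : ℝ)
        ≤ 576 * K ^ 6 * M₀ + 4 := by
      intro x2
      have e1 := labels_over (M := 4 * K ^ 2 * L * (M₀ * (L * μ)) / d) (g := g₁) (y0 := x2)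
        h.sepU h.memI h.nx hdμ hI (short_x h hd hdL hI hJ hM₀ hgmin hg₁0 hg₁g x2)
      linarith
    have hn : δ ≤ (⌈72 * K ^ 2⌉₊ : ℕ) * g₁ := by
      have := Nat.le_ceil (72 * K ^ 2)
      calc δ = (72 * K ^ 2) * g₁ := by
            rw [hδ, hg₁]
            field_simp
            ring
        _ ≤ _ := mul_le_mul_of_nonneg_right this hg₁0.le
    have e2 := labels_cover (C := C) (j := i) (S := S) hg₁0
      ⌈72 * K ^ 2⌉₊ hn x0 (fun B hB => ⟨(mem_filter.1 hB).1, (mem_filter.1 hB).2.1⟩) hb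
    refine e2.trans (mul_le_mul_of_nonneg_right ?_ (by positivity))
    have := Nat.ceil_lt_add_one (by positivity : (0 : ℝ) ≤ 72 * K ^ 2)
    linarith
  -- cells
  have hSc : (#S : ℝ) ≤ K * μ * (#(S.image i) * #(S.image j)) := by
    have h1 : (#S : ℝ) ≤ K * μ * #(S.image (fun B => (i B, j B))) := by
      refine card_le_mul_image S _ (fun c _ => ?_)
      refine le_trans ?_ (h.pij c.1 c.2)
      have : ({B ∈ S | (i B, j B) = c} : Finset γ) ⊆ {B ∈ C | i B = c.1 ∧ j B = c.2} := by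
        intro B hB
        rw [mem_filter] at hB ⊢
        exact ⟨(mem_filter.1 hB.1).1, by rw [← hB.2], by rw [← hB.2]⟩
      exact_mod_cast card_le_card this
    have h2 : S.image (fun B => (i B, j B)) ⊆ S.image i ×ˢ S.image j := by
      intro c hc
      obtain ⟨B, hB, rfl⟩ := mem_image.1 hc
      exact mem_product.2 ⟨mem_image_of_mem _ hB, mem_image_of_mem _ hB⟩
    have h3 : (#(S.image (fun B => (i B, j B))) : ℝ) ≤ #(S.image i) * #(S.image j) := by
      have := card_le_card h2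
      rw [card_product] at this
      exact_mod_cast this
    exact h1.trans (mul_le_mul_of_nonneg_left h3 (by positivity))
  exact hSc.trans (num_mult hK1 hM1 hμ (Nat.cast_nonneg _) hil hjl)

open Classical in
/-- the number of grid cells near heavy `x`-intervals -/
theorem grid_count (h : Tri K L μ C X Y Z I p u i J q v j KK r w k) {d M₀ δ : ℝ} (hd : 0 < d)
    (hLd : L ≤ 12 * K ^ 2 * d) (hMpos : 0 < M₀) (hδ0 : 0 < δ) (H : Finset γ)
    (hHB : ∀ B ∈ H, ∃ x0, |X B - x0| ≤ δ ∧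
      d * (M₀ * (L * μ)) ≤ 4 * K ^ 2 * L * #{B' ∈ C | |X B' - x0| ≤ δ}) :
    (#(H.image fun B => ⌊X B / (2 * δ)⌋) : ℝ) ≤ 144 * K ^ 7 * L / M₀ := by
  have hK : 0 < K := lt_of_lt_of_le one_pos h.oneK
  have hL := h.posL
  have hμ := h.posM
  set c : γ → ℤ := fun B => ⌊X B / (2 * δ)⌋ with hc
  set ν : ℝ := d * (M₀ * (L * μ)) / (4 * K ^ 2 * L) with hν
  have hν0 : 0 < ν := by positivity
  have h1 : ∀ a ∈ H.image c,
      ν ≤ ∑ e ∈ ({-1, 0, 1} : Finset ℤ), (#{B' ∈ C | c B' = a + e} : ℝ) := by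
    intro a ha
    obtain ⟨B, hB, rfl⟩ := mem_image.1 ha
    obtain ⟨x0, hx0, hx1⟩ := hHB B hB
    have e1 : ν ≤ #{B' ∈ C | |X B' - x0| ≤ δ} := by
      rw [hν, div_le_iff₀ (by positivity)]
      calc d * (M₀ * (L * μ)) ≤ _ := hx1
        _ = _ := by ring
    refine e1.trans ?_
    have e2 : ({B' ∈ C | |X B' - x0| ≤ δ} : Finset γ)
        ⊆ ({-1, 0, 1} : Finset ℤ).biUnion (fun e => {B' ∈ C | c B' = c B + e}) := by
      intro B' hB'
      rw [mem_filter] at hB'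
      have f1 := abs_le.1 hB'.2
      have f2 := abs_le.1 hx0
      have f3 : |X B' / (2 * δ) - X B / (2 * δ)| ≤ 1 := by
        rw [← sub_div, abs_div, abs_of_pos (by positivity : 0 < 2 * δ),
          div_le_one (by positivity), abs_le]
        constructor <;> linarith
      have f4 := abs_le.1 f3
      have g1 := Int.floor_le (X B' / (2 * δ))
      have g2 := Int.lt_floor_add_one (X B' / (2 * δ))
      have g3 := Int.floor_le (X B / (2 * δ))
      have g4 := Int.lt_floor_add_one (X B / (2 * δ))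
      have g5 : (c B' : ℝ) < c B + 2 := by
        simp only [hc]
        linarith
      have g6 : (c B : ℝ) < c B' + 2 := by
        simp only [hc]
        linarith
      have g5' : c B' < c B + 2 := by exact_mod_cast g5
      have g6' : c B < c B' + 2 := by exact_mod_cast g6
      rw [mem_biUnion]
      refine ⟨c B' - c B, ?_, mem_filter.2 ⟨hB'.1, by ring⟩⟩
      simp only [mem_insert, mem_singleton]
      omega
    exact_mod_cast (card_le_card e2).trans card_biUnion_le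
  have h2 : (#(H.image c) : ℝ) * ν ≤ 3 * #C := by
    calc (#(H.image c) : ℝ) * ν = ∑ _a ∈ H.image c, ν := by rw [sum_const, nsmul_eq_mul]
      _ ≤ ∑ a ∈ H.image c, ∑ e ∈ ({-1, 0, 1} : Finset ℤ), (#{B' ∈ C | c B' = a + e} : ℝ) :=
          sum_le_sum h1
      _ = ∑ e ∈ ({-1, 0, 1} : Finset ℤ), ∑ a ∈ H.image c, (#{B' ∈ C | c B' = a + e} : ℝ) :=
          sum_comm
      _ ≤ ∑ _e ∈ ({-1, 0, 1} : Finset ℤ), (#C : ℝ) := by
          refine sum_le_sum fun e _ => ?_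
          have e1 : ∑ a ∈ H.image c, #{B' ∈ C | c B' = a + e} ≤ #C := by
            rw [← card_biUnion]
            · refine card_le_card (biUnion_subset.2 fun a _ => filter_subset _ _)
            · intro a _ b _ hab
              rw [Function.onFun, disjoint_left]
              intro B' h3 h4
              rw [mem_filter] at h3 h4
              exact hab (by linarith [h3.2, h4.2])
          exact_mod_cast e1
      _ = 3 * #C := by
          rw [sum_const, nsmul_eq_mul]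
          norm_num
  have h3 : (#C : ℝ) ≤ K ^ 3 * L ^ 2 * μ :=
    card_cells hK.le hL.le hμ.le h.cI h.cJ h.memI h.memJ h.pij
  have h4 : (#(H.image c) : ℝ) * ν ≤ 3 * (K ^ 3 * L ^ 2 * μ) := by linarith
  have h5 : M₀ * (L * μ) / (48 * K ^ 4) ≤ ν := by
    rw [hν, div_le_div_iff₀ (by positivity) (by positivity)]
    calc M₀ * (L * μ) * (4 * K ^ 2 * L) = (4 * M₀ * K ^ 2 * L * μ) * L := by ring
      _ ≤ (4 * M₀ * K ^ 2 * L * μ) * (12 * K ^ 2 * d) :=
          mul_le_mul_of_nonneg_left hLd (by positivity)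
      _ = d * (M₀ * (L * μ)) * (48 * K ^ 4) := by ring
  rw [le_div_iff₀ hMpos]
  have h6 : (#(H.image c) : ℝ) * (M₀ * (L * μ) / (48 * K ^ 4)) ≤ 3 * (K ^ 3 * L ^ 2 * μ) :=
    (mul_le_mul_of_nonneg_left h5 (Nat.cast_nonneg _)).trans h4
  have h7 : (#(H.image c) : ℝ) * (M₀ * (L * μ) / (48 * K ^ 4))
      = (#(H.image c) * M₀) * (L * μ / (48 * K ^ 4)) := by ring
  have h8 : 3 * (K ^ 3 * L ^ 2 * μ) = (144 * K ^ 7 * L) * (L * μ / (48 * K ^ 4)) := by
    field_simp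
    ring
  rw [h7, h8] at h6
  exact le_of_mul_le_mul_right h6 (by positivity)

open Classical in
/-- **RESOLUTION** for the cells of one class `C`, all labels rich -/
theorem resolution (h : Tri K L μ C X Y Z I p u i J q v j KK r w k) {d M₀ : ℝ} (hd : 0 < d)
    (hdL : d ≤ L) (hLd : L ≤ 12 * K ^ 2 * d) (hI : Rich (d * μ) C i) (hJ : Rich (d * μ) C j)
    (hM₀ : 10 ^ 3 * K ^ 6 ≤ M₀) (hC : M₀ * (L * μ) ≤ #C) (hv : ∀ a ∈ J, 0 < v a) :
    ∃ δ : ℝ, 0 < δ ∧ ∃ H ⊆ C, d * d * μ ≤ 20 * K * #H ∧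
      (∀ B ∈ H, u (i B) ≤ δ) ∧
      (∀ x0 y0 : ℝ, (#{B ∈ C | |X B - x0| ≤ δ ∧ |Y B - y0| ≤ δ} : ℝ)
        ≤ 10 ^ 7 * K ^ 12 * M₀ ^ 2 * μ) ∧
      (#(H.image fun B => ⌊X B / (2 * δ)⌋) : ℝ) ≤ 144 * K ^ 7 * L / M₀ := by
  have hK : 0 < K := lt_of_lt_of_le one_pos h.oneK
  have hK1 := h.oneK
  have hL := h.posL
  have hK6 : (1 : ℝ) ≤ K ^ 6 := one_le_pow₀ hK1
  have hM1 : 1 ≤ M₀ := by linarith
  have hMpos : 0 < M₀ := by linarith
  have hμ := h.posM
  have hMM : 0 < M₀ * (L * μ) := by positivity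
  obtain ⟨g, y0, hg0, hgM, hgmin⟩ := exists_shortest C Y hMM hC
  have hJne : J.Nonempty := by
    rw [nonempty_iff_ne_empty]
    intro hJe
    have hne : C.Nonempty := by
      rw [nonempty_iff_ne_empty]
      rintro rfl
      rw [card_empty, Nat.cast_zero] at hC
      linarith
    obtain ⟨B, hB⟩ := hne
    have := h.memJ B hB
    rw [hJe] at this
    exact absurd this (notMem_empty _)
  obtain ⟨a₀, ha₀, hamin⟩ := exists_min_image J v hJne
  have hρ0 : 0 < v a₀ := hv a₀ ha₀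
  have hgρ := length_ge h hρ0 (fun a ha => hamin a ha) hg0 hgM
  have hg : 0 < g := by
    refine lt_of_lt_of_le ?_ hgρ
    refine mul_pos ?_ hρ0
    have e1 : M₀ * (L * μ) / (K ^ 2 * L * μ) = M₀ / K ^ 2 := by field_simp
    rw [e1]
    have e2 : 10 ^ 3 * K ^ 4 ≤ M₀ / K ^ 2 := by
      rw [le_div_iff₀ (by positivity)]
      calc 10 ^ 3 * K ^ 4 * K ^ 2 = 10 ^ 3 * K ^ 6 := by ring
        _ ≤ M₀ := hM₀
    have e3 : (1 : ℝ) ≤ K ^ 4 := one_le_pow₀ hK1
    linarith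
  have hδg : g ≤ 6 * K * g := by
    have : 1 * g ≤ (6 * K) * g := mul_le_mul_of_nonneg_right (by linarith) hg0
    linarith
  have hM48 : 48 * K ^ 3 * L * μ ≤ M₀ * (L * μ) := by
    have e1 : K ^ 3 ≤ K ^ 6 := pow_le_pow_right₀ hK1 (by norm_num)
    have e2 : 48 * K ^ 3 ≤ M₀ := by linarith
    calc 48 * K ^ 3 * L * μ = (48 * K ^ 3) * (L * μ) := by ring
      _ ≤ M₀ * (L * μ) := mul_le_mul_of_nonneg_right e2 (by positivity)
  obtain ⟨H, hHC, hHd, hHB⟩ := match_y h hd hdL hI hJ hg (hM48.trans hgM)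
  refine ⟨6 * K * g, by positivity, H, hHC, hHd, fun B hB => (hHB B hB).1.trans hδg,
    fun x0 y1 => mult_bound h hd hdL hLd hI hJ hM₀ hg hgmin x0 y1,
    grid_count h hd hLd hMpos (by positivity) H (fun B hB => ?_)⟩
  obtain ⟨-, x0, hx0, hx1⟩ := hHB B hB
  refine ⟨x0, hx0, le_trans ?_ hx1⟩
  exact mul_le_mul_of_nonneg_left hgM hd.le

end Vale.Agent.P065.H240
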