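import Vale.Agent.P065.H240.PenA

/-!
# P065, upper bound, ONE RESOLUTION (helper240), part B: orientation lemma (helper410, note 18699)

Points `B ∈ C` (two labels of different pencils share at most `K μ` points) with three exact
coordinates `X B`, `Y B`, `Z B`, any two of which control the third
one up to the factor `K` (quasi-linear, helper433); three families of disjoint intervals with
labels `i B` (interval of `X`, centre `p`, half-width `u`), `j B` (`Y`, `q`, `v`), `k B`
(`Z`, `r`, `w`).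
-/

set_option autoImplicit false

namespace Vale.Agent.P065.H240

open Finset

open Classical in
/-- three pencils of disjoint strips through the cells of `C` -/
structure Tri {γ ι κ β : Type} (K L μ : ℝ) (C : Finset γ) (X Y Z : γ → ℝ)
    (I : Finset ι) (p u : ι → ℝ) (i : γ → ι) (J : Finset κ) (q v : κ → ℝ) (j : γ → κ)
    (KK : Finset β) (r w : β → ℝ) (k : γ → β) : Prop where
  oneK : 1 ≤ K
  posL : 0 < L
  posM : 0 < μ
  u0 : ∀ a ∈ I, 0 ≤ u a
  v0 : ∀ a ∈ J, 0 ≤ v a
  w0 : ∀ a ∈ KK, 0 ≤ w a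
  sepU : ∀ a ∈ I, ∀ b ∈ I, a ≠ b → u a + u b ≤ |p a - p b|
  sepV : ∀ a ∈ J, ∀ b ∈ J, a ≠ b → v a + v b ≤ |q a - q b|
  sepW : ∀ a ∈ KK, ∀ b ∈ KK, a ≠ b → w a + w b ≤ |r a - r b|
  cI : (#I : ℝ) ≤ K * L
  cJ : (#J : ℝ) ≤ K * L
  cK : (#KK : ℝ) ≤ K * L
  memI : ∀ B ∈ C, i B ∈ I
  memJ : ∀ B ∈ C, j B ∈ J
  memK : ∀ B ∈ C, k B ∈ KK
  nx : ∀ B ∈ C, |X B - p (i B)| ≤ u (i B)
  ny : ∀ B ∈ C, |Y B - q (j B)| ≤ v (j B)
  nz : ∀ B ∈ C, |Z B - r (k B)| ≤ w (k B)
  qx : ∀ B ∈ C, ∀ B' ∈ C, |X B - X B'| ≤ K * (|Y B - Y B'| + |Z B - Z B'|)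
  qy : ∀ B ∈ C, ∀ B' ∈ C, |Y B - Y B'| ≤ K * (|X B - X B'| + |Z B - Z B'|)
  qz : ∀ B ∈ C, ∀ B' ∈ C, |Z B - Z B'| ≤ K * (|X B - X B'| + |Y B - Y B'|)
  pij : ∀ a b, (#{B ∈ C | i B = a ∧ j B = b} : ℝ) ≤ K * μ
  pik : ∀ a b, (#{B ∈ C | i B = a ∧ k B = b} : ℝ) ≤ K * μ
  pjk : ∀ a b, (#{B ∈ C | j B = a ∧ k B = b} : ℝ) ≤ K * μ

variable {γ ι κ β : Type} {K L μ : ℝ} {C : Finset γ} {X Y Z : γ → ℝ}
    {I : Finset ι} {p u : ι → ℝ} {i : γ → ι} {J : Finset κ} {q v : κ → ℝ} {j : γ → κ}
    {KK : Finset β} {r w : β → ℝ} {k : γ → β}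

/-- restriction to a subset of the cells -/
theorem Tri.mono (h : Tri K L μ C X Y Z I p u i J q v j KK r w k) {C' : Finset γ}
    (hC : C' ⊆ C) : Tri K L μ C' X Y Z I p u i J q v j KK r w k := by
  classical
  exact
  { oneK := h.oneK, posL := h.posL, posM := h.posM, u0 := h.u0, v0 := h.v0, w0 := h.w0
    sepU := h.sepU, sepV := h.sepV, sepW := h.sepW, cI := h.cI, cJ := h.cJ, cK := h.cK
    memI := fun B hB => h.memI B (hC hB), memJ := fun B hB => h.memJ B (hC hB)
    memK := fun B hB => h.memK B (hC hB), nx := fun B hB => h.nx B (hC hB)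
    ny := fun B hB => h.ny B (hC hB), nz := fun B hB => h.nz B (hC hB)
    qx := fun B hB B' hB' => h.qx B (hC hB) B' (hC hB')
    qy := fun B hB B' hB' => h.qy B (hC hB) B' (hC hB')
    qz := fun B hB B' hB' => h.qz B (hC hB) B' (hC hB')
    pij := fun a b => le_trans (by exact_mod_cast card_le_card (filter_subset_filter _ hC))
      (h.pij a b)
    pik := fun a b => le_trans (by exact_mod_cast card_le_card (filter_subset_filter _ hC))
      (h.pik a b)
    pjk := fun a b => le_trans (by exact_mod_cast card_le_card (filter_subset_filter _ hC))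
      (h.pjk a b) }

/-- exchange of the first two pencils -/
theorem Tri.swap (h : Tri K L μ C X Y Z I p u i J q v j KK r w k) :
    Tri K L μ C Y X Z J q v j I p u i KK r w k := by
  classical
  refine
  { oneK := h.oneK, posL := h.posL, posM := h.posM, u0 := h.v0, v0 := h.u0, w0 := h.w0
    sepU := h.sepV, sepV := h.sepU, sepW := h.sepW
    cI := h.cJ, cJ := h.cI, cK := h.cK
    memI := h.memJ, memJ := h.memI, memK := h.memK, nx := h.ny, ny := h.nx, nz := h.nz
    qx := h.qy, qy := h.qx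
    qz := fun B hB B' hB' => ?_
    pij := ?_
    pik := h.pjk
    pjk := h.pik }
  · rw [add_comm]
    exact h.qz B hB B' hB'
  · intro a b
    have h1 := h.pij b a
    have h2 : ({B ∈ C | j B = a ∧ i B = b} : Finset γ) = {B ∈ C | i B = b ∧ j B = a} :=
      filter_congr fun B _ => and_comm
    rw [h2]
    exact h1

open Classical in
/-- disjoint intervals of positive length which contain a given point -/
theorem cover_le_two {κ : Type*} (S : Finset κ) (q v : κ → ℝ) {t : ℝ} (hv : ∀ a ∈ S, 0 < v a)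
    (hsep : ∀ a ∈ S, ∀ b ∈ S, a ≠ b → v a + v b ≤ |q a - q b|)
    (h : ∀ a ∈ S, |q a - t| ≤ v a) : (#S : ℝ) ≤ 2 := by
  rcases S.eq_empty_or_nonempty with hS | hS
  · rw [hS, card_empty]; norm_num
  · obtain ⟨a, ha, hmin⟩ := exists_min_image S v hS
    have := meet_count S q v (ρ := v a) (τ := 0) (q := t) (hv a ha) le_rfl hmin hsep
      (fun b hb => by rw [add_zero]; exact h b hb)
    rw [zero_div, zero_add] at this
    exact this

/-- two points of one interval -/
theorem two_pts {x y c s : ℝ} (h1 : |x - c| ≤ s) (h2 : |y - c| ≤ s) : |x - y| ≤ 2 * s := by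
  rw [abs_le] at h1 h2 ⊢
  constructor <;> linarith [h1.1, h1.2, h2.1, h2.2]

/-- distance of the centre -/
theorem cen {x c s y t : ℝ} (h1 : |x - c| ≤ s) (h2 : |x - y| ≤ t) : |c - y| ≤ s + t := by
  rw [abs_le] at h1 h2 ⊢
  constructor <;> linarith [h1.1, h1.2, h2.1, h2.2]

open Classical in
/-- **orientation lemma**: over an interval of `y` of half-length `g` all but `12 K³ L μ` points lie
in strips of half-width less than `g` of the first and third pencil -/
theorem orient (h : Tri K L μ C X Y Z I p u i J q v j KK r w k) {g y0 : ℝ} (hg : 0 < g) :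
    (#{B ∈ C | |Y B - y0| ≤ g ∧ (g ≤ u (i B) ∨ g ≤ w (k B))} : ℝ) ≤ 12 * K ^ 3 * L * μ := by
  have hK : 0 < K := lt_of_lt_of_le one_pos h.oneK
  have hK1 := h.oneK
  have hL := h.posL
  have hμ := h.posM
  set S1 : Finset γ := {B ∈ C | |Y B - y0| ≤ g ∧ g ≤ w (k B) ∧ u (i B) ≤ w (k B)} with hS1
  set S2 : Finset γ := {B ∈ C | |Y B - y0| ≤ g ∧ g ≤ u (i B) ∧ w (k B) ≤ u (i B)} with hS2
  have hsub : ({B ∈ C | |Y B - y0| ≤ g ∧ (g ≤ u (i B) ∨ g ≤ w (k B))} : Finset γ)
      ⊆ S1 ∪ S2 := by
    intro B hB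
    simp only [mem_filter, mem_union, hS1, hS2] at hB ⊢
    obtain ⟨h1, h2, h3⟩ := hB
    rcases le_total (u (i B)) (w (k B)) with h4 | h4
    · left
      refine ⟨h1, h2, ?_, h4⟩
      rcases h3 with h3 | h3
      · exact h3.trans h4
      · exact h3
    · right
      refine ⟨h1, h2, ?_, h4⟩
      rcases h3 with h3 | h3
      · exact h3
      · exact h3.trans h4
  -- first kind
  have b1 : ∀ a ∈ S1.image i, (#{B ∈ S1 | i B = a} : ℝ) ≤ K * μ * (4 * K + 2) := by
    intro a ha
    set F : Finset γ := {B ∈ S1 | i B = a} with hF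
    obtain ⟨B0, hB0, hB0a⟩ := mem_image.1 ha
    have hB0' := mem_filter.1 hB0
    have e1 : (#F : ℝ) ≤ K * μ * #(F.image k) := by
      refine card_le_mul_image F k (fun c _ => ?_)
      refine le_trans ?_ (h.pik a c)
      have : ({B ∈ F | k B = c} : Finset γ) ⊆ {B ∈ C | i B = a ∧ k B = c} := by
        intro B hB
        simp only [hF, hS1, mem_filter] at hB ⊢
        exact ⟨hB.1.1.1, hB.1.2, hB.2⟩
      exact_mod_cast card_le_card this
    have e2 : (#(F.image k) : ℝ) ≤ 4 * K + 2 := by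
      have hρ : 0 < max (u a) g := lt_max_of_lt_right hg
      have e3 := meet_count (F.image k) r w (ρ := max (u a) g) (τ := (4 * K) * max (u a) g)
        (q := Z B0) hρ (by positivity) ?_ ?_ ?_
      · rw [mul_div_assoc, div_self hρ.ne'] at e3
        linarith
      · intro c hc
        obtain ⟨B, hB, rfl⟩ := mem_image.1 hc
        simp only [hF, hS1, mem_filter] at hB
        exact max_le (hB.2 ▸ hB.1.2.2.2) hB.1.2.2.1
      · intro c hc c' hc' hcc
        have hc1 : ∀ c ∈ F.image k, c ∈ KK := by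
          intro c hc
          obtain ⟨B, hB, rfl⟩ := mem_image.1 hc
          simp only [hF, hS1, mem_filter] at hB
          exact h.memK B hB.1.1
        exact h.sepW c (hc1 c hc) c' (hc1 c' hc') hcc
      · intro c hc
        obtain ⟨B, hB, rfl⟩ := mem_image.1 hc
        simp only [hF, hS1, mem_filter] at hB
        obtain ⟨⟨hBC, hBy, -, -⟩, hBa⟩ := hB
        have f1 := h.nx B hBC
        have f2 := h.nx B0 hB0'.1
        rw [hBa] at f1
        rw [hB0a] at f2
        have f3 := h.qz B hBC B0 hB0'.1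
        have f4 : u a ≤ max (u a) g := le_max_left _ _
        have f5 : g ≤ max (u a) g := le_max_right _ _
        have f6 : |Z B - Z B0| ≤ 4 * K * max (u a) g := by
          refine f3.trans ?_
          calc K * (|X B - X B0| + |Y B - Y B0|) ≤ K * (2 * u a + 2 * g) :=
                mul_le_mul_of_nonneg_left
                  (add_le_add (two_pts f1 f2) (two_pts hBy hB0'.2.1)) hK.le
            _ ≤ K * (4 * max (u a) g) := mul_le_mul_of_nonneg_left (by linarith) hK.le
            _ = 4 * K * max (u a) g := by ring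
        exact cen (h.nz B hBC) f6
    calc (#F : ℝ) ≤ K * μ * #(F.image k) := e1
      _ ≤ K * μ * (4 * K + 2) := mul_le_mul_of_nonneg_left e2 (by positivity)
  have c1 : (#S1 : ℝ) ≤ K * μ * (4 * K + 2) * (K * L) := by
    refine (card_le_mul_image S1 i b1).trans ?_
    refine mul_le_mul_of_nonneg_left ?_ (by positivity)
    refine le_trans ?_ h.cI
    have : S1.image i ⊆ I := by
      intro a ha
      obtain ⟨B, hB, rfl⟩ := mem_image.1 ha
      exact h.memI B (mem_filter.1 hB).1
    exact_mod_cast card_le_card this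
  -- second kind
  have b2 : ∀ a ∈ S2.image k, (#{B ∈ S2 | k B = a} : ℝ) ≤ K * μ * (4 * K + 2) := by
    intro a ha
    set F : Finset γ := {B ∈ S2 | k B = a} with hF
    obtain ⟨B0, hB0, hB0a⟩ := mem_image.1 ha
    have hB0' := mem_filter.1 hB0
    have e1 : (#F : ℝ) ≤ K * μ * #(F.image i) := by
      refine card_le_mul_image F i (fun c _ => ?_)
      refine le_trans ?_ (h.pik c a)
      have : ({B ∈ F | i B = c} : Finset γ) ⊆ {B ∈ C | i B = c ∧ k B = a} := by
        intro B hB
        simp only [hF, hS2, mem_filter] at hB ⊢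
        exact ⟨hB.1.1.1, hB.2, hB.1.2⟩
      exact_mod_cast card_le_card this
    have e2 : (#(F.image i) : ℝ) ≤ 4 * K + 2 := by
      have hρ : 0 < max (w a) g := lt_max_of_lt_right hg
      have e3 := meet_count (F.image i) p u (ρ := max (w a) g) (τ := (4 * K) * max (w a) g)
        (q := X B0) hρ (by positivity) ?_ ?_ ?_
      · rw [mul_div_assoc, div_self hρ.ne'] at e3
        linarith
      · intro c hc
        obtain ⟨B, hB, rfl⟩ := mem_image.1 hc
        simp only [hF, hS2, mem_filter] at hB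
        exact max_le (hB.2 ▸ hB.1.2.2.2) hB.1.2.2.1
      · intro c hc c' hc' hcc
        have hc1 : ∀ c ∈ F.image i, c ∈ I := by
          intro c hc
          obtain ⟨B, hB, rfl⟩ := mem_image.1 hc
          simp only [hF, hS2, mem_filter] at hB
          exact h.memI B hB.1.1
        exact h.sepU c (hc1 c hc) c' (hc1 c' hc') hcc
      · intro c hc
        obtain ⟨B, hB, rfl⟩ := mem_image.1 hc
        simp only [hF, hS2, mem_filter] at hB
        obtain ⟨⟨hBC, hBy, -, -⟩, hBa⟩ := hB
        have f1 := h.nz B hBC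
        have f2 := h.nz B0 hB0'.1
        rw [hBa] at f1
        rw [hB0a] at f2
        have f3 := h.qx B hBC B0 hB0'.1
        have f4 : w a ≤ max (w a) g := le_max_left _ _
        have f5 : g ≤ max (w a) g := le_max_right _ _
        have f6 : |X B - X B0| ≤ 4 * K * max (w a) g := by
          refine f3.trans ?_
          calc K * (|Y B - Y B0| + |Z B - Z B0|) ≤ K * (2 * g + 2 * w a) :=
                mul_le_mul_of_nonneg_left
                  (add_le_add (two_pts hBy hB0'.2.1) (two_pts f1 f2)) hK.le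
            _ ≤ K * (4 * max (w a) g) := mul_le_mul_of_nonneg_left (by linarith) hK.le
            _ = 4 * K * max (w a) g := by ring
        exact cen (h.nx B hBC) f6
    calc (#F : ℝ) ≤ K * μ * #(F.image i) := e1
      _ ≤ K * μ * (4 * K + 2) := mul_le_mul_of_nonneg_left e2 (by positivity)
  have c2 : (#S2 : ℝ) ≤ K * μ * (4 * K + 2) * (K * L) := by
    refine (card_le_mul_image S2 k b2).trans ?_
    refine mul_le_mul_of_nonneg_left ?_ (by positivity)
    refine le_trans ?_ h.cK
    have : S2.image k ⊆ KK := by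
      intro a ha
      obtain ⟨B, hB, rfl⟩ := mem_image.1 ha
      exact h.memK B (mem_filter.1 hB).1
    exact_mod_cast card_le_card this
  have c3 : (#{B ∈ C | |Y B - y0| ≤ g ∧ (g ≤ u (i B) ∨ g ≤ w (k B))} : ℝ) ≤ #S1 + #S2 := by
    exact_mod_cast (card_le_card hsub).trans (card_union_le _ _)
  have c4 : K * μ * (4 * K + 2) * (K * L) ≤ 6 * K ^ 3 * L * μ := by
    have : (4 * K + 2) ≤ 6 * K := by linarith
    calc K * μ * (4 * K + 2) * (K * L) = (K ^ 2 * L * μ) * (4 * K + 2) := by ring
      _ ≤ (K ^ 2 * L * μ) * (6 * K) := mul_le_mul_of_nonneg_left this (by positivity)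
      _ = 6 * K ^ 3 * L * μ := by ring
  linarith

end Vale.Agent.P065.H240
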